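import Crest.Agent.R163.Q3.D.R3.S0
import Crest.Agent.R163.Q3.D.R3.H

set_option autoImplicit false
set_option maxRecDepth 100000
set_option linter.all false
set_option Elab.async false

namespace Crest.Agent.R163.R3

theorem p0_2_26 : Ok2 par f2 (Box3.unit.l 1) (selB2 1 (selB2 0 C0 1298082261765092244794344750546943) 5633759604858876) :=
  Ok2.run hw hf2 ⟨264,19,19,13,13⟩ 58
    (.chk false 2048)
    (by decide +kernel)

theorem p0_2_27 : Ok2 par f2 ((Box3.unit.r 1).l 0) (selB2 1 (selB2 0 (selB2 0 C0 1298082261765092244794344750546943) 144673740670672899) 4810363371519) :=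
  Ok2.run hw hf2 ⟨292,19,19,13,13⟩ 58
    (.chk false 2048)
    (by decide +kernel)

theorem p0_2_28 : Ok2 par f2 ((Box3.unit.r 1).l 0) (selB2 0 (selB2 0 (selB2 0 C0 1298082261765092244794344750546943) 144673740670672899) 4810363371519) :=
  Ok2.run hw hf2 ⟨326,19,19,13,13⟩ 58
    (.split 1 (.part 14 (.chk false 0) (.split 1 (.chk false 0) (.chk false 0))) (.chk false 0))
    (by decide +kernel)

theorem p0_2_29 : Ok2 par f2 (((((((Box3.unit.r 1).r 0).l 1).r 1).l 0).l 1).l 2) (selB2 0 (selB2 0 (selB2 0 (selB2 0 (selB2 0 (selB2 0 C0 1298082261765092244794344750546943) 144673740670672899) 34359736160) 16592) 31) 7) :=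
  Ok2.run hw hf2 ⟨373,19,19,13,13⟩ 58
    (.chk false 0)
    (by decide +kernel)

theorem p0_2_30 : Ok2 par f2 (((((((Box3.unit.r 1).r 0).l 1).r 1).l 0).l 1).r 2) (selB2 0 (selB2 0 (selB2 0 (selB2 0 (selB2 0 (selB2 0 C0 1298082261765092244794344750546943) 144673740670672899) 34359736160) 16592) 31) 7) :=
  Ok2.run hw hf2 ⟨441,19,19,13,13⟩ 58
    (.split 0 (.part 6 (.chk false 0) (.split 2 (.chk false 0) (.split 1 (.chk false 0) (.split 0 (.chk false 0) (.chk false 0))))) (.part 5 (.chk false 0) (.split 1 (.chk false 0) (.chk false 0))))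
    (by decide +kernel)

theorem p0_2_31 : Ok2 par f2 ((((((Box3.unit.r 1).r 0).l 1).r 1).l 0).l 1) (selB2 1 (selB2 0 (selB2 0 (selB2 0 (selB2 0 (selB2 0 C0 1298082261765092244794344750546943) 144673740670672899) 34359736160) 16592) 31) 7) :=
  Ok2.run hw hf2 ⟨356,19,19,13,13⟩ 58
    (.chk false 0)
    (by decide +kernel)

theorem p0_2_32 : Ok2 par f2 ((((((Box3.unit.r 1).r 0).l 1).r 1).l 0).r 1) (selB2 0 (selB2 0 (selB2 0 (selB2 0 (selB2 0 C0 1298082261765092244794344750546943) 144673740670672899) 34359736160) 16592) 31) :=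
  Ok2.run hw hf2 ⟨415,19,19,13,13⟩ 58
    (.part 62 (.chk false 0) (.split 2 (.chk false 0) (.split 0 (.chk false 0) (.split 1 (.chk false 0) (.chk false 0)))))
    (by decide +kernel)

theorem p0_2_33 : Ok2 par f2 (((((Box3.unit.r 1).r 0).l 1).r 1).l 0) (selB2 1 (selB2 0 (selB2 0 (selB2 0 (selB2 0 C0 1298082261765092244794344750546943) 144673740670672899) 34359736160) 16592) 31) :=
  Ok2.run hw hf2 ⟨339,19,19,13,13⟩ 58
    (.chk false 2048)
    (by decide +kernel)

theorem p0_2_34 : Ok2 par f2 (((((((((Box3.unit.r 1).r 0).l 1).r 1).r 0).r 0).r 0).r 1).l 2) (selB2 1 (selB2 0 (selB2 0 (selB2 0 (selB2 0 (selB2 0 (selB2 0 (selB2 0 C0 1298082261765092244794344750546943) 144673740670672899) 34359736160) 16592) 1856) 96) 16) 8) :=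
  Ok2.run hw hf2 ⟨423,19,19,13,13⟩ 58
    (.chk false 0)
    (by decide +kernel)

theorem p0_2_35 : Ok2 par f2 (((((((((Box3.unit.r 1).r 0).l 1).r 1).r 0).r 0).r 0).r 1).l 2) (selB2 0 (selB2 0 (selB2 0 (selB2 0 (selB2 0 (selB2 0 (selB2 0 (selB2 0 C0 1298082261765092244794344750546943) 144673740670672899) 34359736160) 16592) 1856) 96) 16) 8) :=
  Ok2.run hw hf2 ⟨510,19,19,13,13⟩ 58
    (.split 0 (.chk false 512) (.split 1 (.chk false 512) (.part 4 (.chk false 512) (.split 2 (.split 0 (.chk false 256) (.split 1 (.chk false 256) (.chk false 256))) (.chk false 256)))))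
    (by decide +kernel)

theorem p0_2_36 : Ok2 par f2 ((((((((((((Box3.unit.r 1).r 0).l 1).r 1).r 0).r 0).r 0).r 1).r 2).r 0).l 1).l 2) (selB2 0 (selB2 0 (selB2 0 (selB2 0 (selB2 0 (selB2 0 (selB2 0 (selB2 0 C0 1298082261765092244794344750546943) 144673740670672899) 34359736160) 16592) 1856) 96) 16) 12) :=
  Ok2.run hw hf2 ⟨469,19,19,13,13⟩ 58
    (.chk false 256)
    (by decide +kernel)

theorem p0_2_37 : Ok2 par f2 ((((((((((((Box3.unit.r 1).r 0).l 1).r 1).r 0).r 0).r 0).r 1).r 2).r 0).l 1).r 2) (selB2 0 (selB2 0 (selB2 0 (selB2 0 (selB2 0 (selB2 0 (selB2 0 (selB2 0 C0 1298082261765092244794344750546943) 144673740670672899) 34359736160) 16592) 1856) 96) 16) 12) :=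
  Ok2.run hw hf2 ⟨559,19,19,13,13⟩ 58
    (.split 0 (.chk false 256) (.split 1 (.chk false 256) (.part 2 (.chk false 256) (.split 2 (.chk false 256) (.split 0 (.chk false 256) (.split 1 (.chk false 256) (.chk false 256)))))))
    (by decide +kernel)

theorem p0_2_38 : Ok2 par f2 (((((((((((Box3.unit.r 1).r 0).l 1).r 1).r 0).r 0).r 0).r 1).r 2).r 0).l 1) (selB2 1 (selB2 0 (selB2 0 (selB2 0 (selB2 0 (selB2 0 (selB2 0 (selB2 0 C0 1298082261765092244794344750546943) 144673740670672899) 34359736160) 16592) 1856) 96) 16) 12) :=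
  Ok2.run hw hf2 ⟨459,19,19,13,13⟩ 58
    (.chk false 512)
    (by decide +kernel)

theorem p0_2_39 : Ok2 par f2 (((((((((((Box3.unit.r 1).r 0).l 1).r 1).r 0).r 0).r 0).r 1).r 2).r 0).r 1) (selB2 0 (selB2 0 (selB2 0 (selB2 0 (selB2 0 (selB2 0 (selB2 0 C0 1298082261765092244794344750546943) 144673740670672899) 34359736160) 16592) 1856) 96) 16) :=
  Ok2.run hw hf2 ⟨497,19,19,13,13⟩ 58
    (.part 11 (.chk false 256) (.split 0 (.chk false 512) (.split 1 (.chk false 512) (.chk false 512))))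
    (by decide +kernel)

theorem p0_2_40 : Ok2 par f2 ((((((((((Box3.unit.r 1).r 0).l 1).r 1).r 0).r 0).r 0).r 1).r 2).l 0) (selB2 0 (selB2 0 (selB2 0 (selB2 0 (selB2 0 (selB2 0 (selB2 0 C0 1298082261765092244794344750546943) 144673740670672899) 34359736160) 16592) 1856) 96) 16) :=
  Ok2.run hw hf2 ⟨441,19,19,13,13⟩ 58
    (.chk false 512)
    (by decide +kernel)

theorem p0_2_41 : Ok2 par f2 ((((((((Box3.unit.r 1).r 0).l 1).r 1).r 0).r 0).r 0).r 1) (selB2 1 (selB2 0 (selB2 0 (selB2 0 (selB2 0 (selB2 0 (selB2 0 C0 1298082261765092244794344750546943) 144673740670672899) 34359736160) 16592) 1856) 96) 16) :=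
  Ok2.run hw hf2 ⟨406,19,19,13,13⟩ 58
    (.chk false 2048)
    (by decide +kernel)

theorem p0_2_42 : Ok2 par f2 ((((((((Box3.unit.r 1).r 0).l 1).r 1).r 0).r 0).r 0).l 1) (selB2 0 (selB2 0 (selB2 0 (selB2 0 (selB2 0 (selB2 0 C0 1298082261765092244794344750546943) 144673740670672899) 34359736160) 16592) 1856) 96) :=
  Ok2.run hw hf2 ⟨403,19,19,13,13⟩ 58
    (.chk false 2048)
    (by decide +kernel)

theorem p0_2_43 : Ok2 par f2 (((((((Box3.unit.r 1).r 0).l 1).r 1).r 0).r 0).l 0) (selB2 0 (selB2 0 (selB2 0 (selB2 0 (selB2 0 (selB2 0 C0 1298082261765092244794344750546943) 144673740670672899) 34359736160) 16592) 1856) 96) :=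
  Ok2.run hw hf2 ⟨385,19,19,13,13⟩ 58
    (.chk false 2048)
    (by decide +kernel)

theorem p0_2_44 : Ok2 par f2 ((((((Box3.unit.r 1).r 0).l 1).r 1).r 0).r 0) (selB2 1 (selB2 0 (selB2 0 (selB2 0 (selB2 0 (selB2 0 C0 1298082261765092244794344750546943) 144673740670672899) 34359736160) 16592) 1856) 96) :=
  Ok2.run hw hf2 ⟨368,19,19,13,13⟩ 58
    (.chk false 0)
    (by decide +kernel)

theorem p0_2_45 : Ok2 par f2 ((((((Box3.unit.r 1).r 0).l 1).r 1).r 0).l 0) (selB2 0 (selB2 0 (selB2 0 (selB2 0 (selB2 0 C0 1298082261765092244794344750546943) 144673740670672899) 34359736160) 16592) 1856) :=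
  Ok2.run hw hf2 ⟨383,19,19,13,13⟩ 58
    (.part 31 (.chk false 2048) (.split 1 (.chk false 0) (.chk false 0)))
    (by decide +kernel)

theorem p0_2_46 : Ok2 par f2 (((((Box3.unit.r 1).r 0).l 1).r 1).r 0) (selB2 1 (selB2 0 (selB2 0 (selB2 0 (selB2 0 C0 1298082261765092244794344750546943) 144673740670672899) 34359736160) 16592) 1856) :=
  Ok2.run hw hf2 ⟨348,19,19,13,13⟩ 58
    (.chk false 0)
    (by decide +kernel)

theorem p0_2_47 : Ok2 par f2 ((((Box3.unit.r 1).r 0).l 1).r 1) (selB2 1 (selB2 0 (selB2 0 (selB2 0 C0 1298082261765092244794344750546943) 144673740670672899) 34359736160) 16592) :=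
  Ok2.run hw hf2 ⟨326,19,19,13,13⟩ 58
    (.chk false 1024)
    (by decide +kernel)

theorem p0_2_48 : Ok2 par f2 ((((Box3.unit.r 1).r 0).l 1).l 1) (selB2 0 (selB2 0 (selB2 0 C0 1298082261765092244794344750546943) 144673740670672899) 34359736160) :=
  Ok2.run hw hf2 ⟨362,19,19,13,13⟩ 58
    (.part 16255 (.chk false 2048) (.split 0 (.chk false 0) (.split 1 (.chk false 0) (.chk false 0))))
    (by decide +kernel)

theorem p0_2_49 : Ok2 par f2 (((Box3.unit.r 1).r 0).l 1) (selB2 1 (selB2 0 (selB2 0 C0 1298082261765092244794344750546943) 144673740670672899) 34359736160) :=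
  Ok2.run hw hf2 ⟨306,19,19,13,13⟩ 58
    (.chk false 2048)
    (by decide +kernel)

theorem p0_2_50 : Ok2 par f2 ((((((((Box3.unit.r 1).r 0).r 1).r 0).l 1).r 0).r 0).l 1) (selB2 0 (selB2 0 (selB2 0 (selB2 0 C0 1298082261765092244794344750546943) 144673740670672899) 8778915253319) 131596224) :=
  Ok2.run hw hf2 ⟨458,19,19,13,13⟩ 58
    (.part 189 (.chk false 2048) (.split 2 (.split 2 (.split 1 (.chk false 1024) (.chk false 1024)) (.chk false 1024)) (.chk false 1024)))
    (by decide +kernel)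

theorem p0_2_51 : Ok2 par f2 ((((((((Box3.unit.r 1).r 0).r 1).r 0).l 1).r 0).r 0).r 1) (selB2 0 (selB2 0 (selB2 0 (selB2 0 C0 1298082261765092244794344750546943) 144673740670672899) 8778915253319) 131596224) :=
  Ok2.run hw hf2 ⟨446,19,19,13,13⟩ 58
    (.part 254 (.chk false 2048) (.split 2 (.split 1 (.chk false 0) (.chk false 0)) (.chk false 0)))
    (by decide +kernel)

theorem p0_2_52 : Ok2 par f2 (((((((Box3.unit.r 1).r 0).r 1).r 0).l 1).r 0).l 0) (selB2 0 (selB2 0 (selB2 0 (selB2 0 C0 1298082261765092244794344750546943) 144673740670672899) 8778915253319) 131596224) :=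
  Ok2.run hw hf2 ⟨389,19,19,13,13⟩ 58
    (.chk false 2048)
    (by decide +kernel)

theorem p0_2_53 : Ok2 par f2 ((((((Box3.unit.r 1).r 0).r 1).r 0).l 1).l 0) (selB2 0 (selB2 0 (selB2 0 (selB2 0 C0 1298082261765092244794344750546943) 144673740670672899) 8778915253319) 131596224) :=
  Ok2.run hw hf2 ⟨368,19,19,13,13⟩ 58
    (.chk false 2048)
    (by decide +kernel)

theorem p0_2_54 : Ok2 par f2 (((((Box3.unit.r 1).r 0).r 1).r 0).l 1) (selB2 1 (selB2 0 (selB2 0 (selB2 0 C0 1298082261765092244794344750546943) 144673740670672899) 8778915253319) 131596224) :=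
  Ok2.run hw hf2 ⟨352,19,19,13,13⟩ 58
    (.chk false 0)
    (by decide +kernel)

theorem p0_2_55 : Ok2 par f2 (((((((Box3.unit.r 1).r 0).r 1).r 0).r 1).r 0).l 1) (selB2 1 (selB2 0 (selB2 0 (selB2 0 (selB2 0 C0 1298082261765092244794344750546943) 144673740670672899) 8778915253319) 105890303) 255) :=
  Ok2.run hw hf2 ⟨393,19,19,13,13⟩ 58
    (.chk false 0)
    (by decide +kernel)

theorem p0_2_56 : Ok2 par f2 (((((((Box3.unit.r 1).r 0).r 1).r 0).r 1).r 0).l 1) (selB2 0 (selB2 0 (selB2 0 (selB2 0 (selB2 0 C0 1298082261765092244794344750546943) 144673740670672899) 8778915253319) 105890303) 255) :=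
  Ok2.run hw hf2 ⟨510,19,19,13,13⟩ 58
    (.split 2 (.split 0 (.chk false 0) (.split 2 (.split 1 (.split 0 (.chk false 0) (.split 2 (.split 1 (.chk false 0) (.chk false 0)) (.chk false 0))) (.chk false 0)) (.chk false 0))) (.chk false 0))
    (by decide +kernel)

theorem p0_2_57 : Ok2 par f2 (((((((Box3.unit.r 1).r 0).r 1).r 0).r 1).r 0).r 1) (selB2 0 (selB2 0 (selB2 0 (selB2 0 C0 1298082261765092244794344750546943) 144673740670672899) 8778915253319) 105890303) :=
  Ok2.run hw hf2 ⟨395,19,19,13,13⟩ 58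
    (.chk false 0)
    (by decide +kernel)

theorem p0_2_58 : Ok2 par f2 ((((((Box3.unit.r 1).r 0).r 1).r 0).r 1).l 0) (selB2 0 (selB2 0 (selB2 0 (selB2 0 C0 1298082261765092244794344750546943) 144673740670672899) 8778915253319) 105890303) :=
  Ok2.run hw hf2 ⟨372,19,19,13,13⟩ 58
    (.chk false 0)
    (by decide +kernel)

theorem p0_2_59 : Ok2 par f2 (((((Box3.unit.r 1).r 0).r 1).r 0).r 1) (selB2 1 (selB2 0 (selB2 0 (selB2 0 C0 1298082261765092244794344750546943) 144673740670672899) 8778915253319) 105890303) :=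
  Ok2.run hw hf2 ⟨356,19,19,13,13⟩ 58
    (.chk false 2048)
    (by decide +kernel)

theorem p0_2_60 : Ok2 par f2 ((((Box3.unit.r 1).r 0).r 1).l 0) (selB2 0 (selB2 0 (selB2 0 C0 1298082261765092244794344750546943) 144673740670672899) 8778915253319) :=
  Ok2.run hw hf2 ⟨328,19,19,13,13⟩ 58
    (.chk false 2048)
    (by decide +kernel)

theorem p0_2_61 : Ok2 par f2 (((Box3.unit.r 1).r 0).r 1) (selB2 1 (selB2 0 (selB2 0 C0 1298082261765092244794344750546943) 144673740670672899) 8778915253319) :=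
  Ok2.run hw hf2 ⟨314,19,19,13,13⟩ 58
    (.chk false 2048)
    (by decide +kernel)

theorem p0_2_62 : Ok2 par f2 (Box3.unit.r 1) (selB2 1 (selB2 0 C0 1298082261765092244794344750546943) 144673740670672899) :=
  Ok2.run hw hf2 ⟨264,19,19,13,13⟩ 58
    (.chk false 256)
    (by decide +kernel)

theorem p0_2_63 : Ok2 par f2 Box3.unit (selB2 1 C0 1298082261765092244794344750546943) :=
  Ok2.run hw hf2 ⟨235,19,19,13,13⟩ 58
    (.chk false 2048)
    (by decide +kernel)


end Crest.Agent.R163.R3
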