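import Crest.Agent.R163.Q3.D.R3.S0
import Crest.Agent.R163.Q3.D.R3.H

set_option autoImplicit false
set_option maxRecDepth 100000
set_option linter.all false
set_option Elab.async false

namespace Crest.Agent.R163.R3

theorem p0_3_0 : Ok2 par f3 Box3.unit (selB2 1 (selB2 1 C0 1947121225470874643145195719229439) 17592186044415) :=
  Ok2.run hw hf3 ⟨237,19,19,16,13⟩ 58
    (.chk false 2048)
    (by decide +kernel)

theorem p0_3_1 : Ok2 par f3 Box3.unit (selB2 0 (selB2 1 C0 1947121225470874643145195719229439) 17592186044415) :=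
  Ok2.run hw hf3 ⟨237,19,19,16,13⟩ 58
    (.chk false 0)
    (by decide +kernel)

theorem p0_3_2 : Ok2 par f3 (((Box3.unit.r 1).l 0).l 1) (selB2 0 (selB2 0 C0 1947121225470874643145195719229439) 4194273) :=
  Ok2.run hw hf3 ⟨307,19,19,16,13⟩ 58
    (.chk false 0)
    (by decide +kernel)

theorem p0_3_3 : Ok2 par f3 (((Box3.unit.r 1).l 0).r 1) (selB2 0 (selB2 0 C0 1947121225470874643145195719229439) 4194273) :=
  Ok2.run hw hf3 ⟨409,19,19,16,13⟩ 58
    (.split 0 (.chk false 0) (.part 14 (.chk false 0) (.split 2 (.chk false 0) (.split 1 (.chk false 0) (.split 2 (.chk false 0) (.split 0 (.chk false 0) (.chk false 0)))))))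
    (by decide +kernel)

theorem p0_3_4 : Ok2 par f3 ((Box3.unit.r 1).l 0) (selB2 1 (selB2 0 C0 1947121225470874643145195719229439) 4194273) :=
  Ok2.run hw hf3 ⟨294,19,19,16,13⟩ 58
    (.chk false 0)
    (by decide +kernel)

theorem p0_3_5 : Ok2 par f3 ((((Box3.unit.r 1).r 0).r 1).l 0) (selB2 1 (selB2 0 (selB2 0 C0 1947121225470874643145195719229439) 70) 524171) :=
  Ok2.run hw hf3 ⟨329,19,19,16,13⟩ 58
    (.chk false 0)
    (by decide +kernel)

theorem p0_3_6 : Ok2 par f3 ((((Box3.unit.r 1).r 0).r 1).l 0) (selB2 0 (selB2 0 (selB2 0 C0 1947121225470874643145195719229439) 70) 524171) :=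
  Ok2.run hw hf3 ⟨392,19,19,16,13⟩ 58
    (.split 2 (.chk false 0) (.split 1 (.chk false 0) (.split 0 (.chk false 0) (.chk false 0))))
    (by decide +kernel)

theorem p0_3_7 : Ok2 par f3 (((((((Box3.unit.r 1).r 0).r 1).r 0).l 2).l 2).l 0) (selB2 0 (selB2 0 (selB2 0 (selB2 0 C0 1947121225470874643145195719229439) 70) 887) 223) :=
  Ok2.run hw hf3 ⟨432,19,19,16,13⟩ 58
    (.part 7 (.chk false 0) (.split 1 (.chk false 0) (.split 0 (.chk false 0) (.chk false 0))))
    (by decide +kernel)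

theorem p0_3_8 : Ok2 par f3 (((((((Box3.unit.r 1).r 0).r 1).r 0).l 2).l 2).r 0) (selB2 0 (selB2 0 (selB2 0 (selB2 0 C0 1947121225470874643145195719229439) 70) 887) 223) :=
  Ok2.run hw hf3 ⟨468,19,19,16,13⟩ 58
    (.part 13 (.chk false 0) (.split 2 (.split 1 (.chk false 0) (.split 2 (.split 0 (.chk false 0) (.chk false 0)) (.chk false 0))) (.chk false 0)))
    (by decide +kernel)

theorem p0_3_9 : Ok2 par f3 ((((((Box3.unit.r 1).r 0).r 1).r 0).l 2).r 2) (selB2 0 (selB2 0 (selB2 0 (selB2 0 C0 1947121225470874643145195719229439) 70) 887) 223) :=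
  Ok2.run hw hf3 ⟨372,19,19,16,13⟩ 58
    (.chk false 0)
    (by decide +kernel)

theorem p0_3_10 : Ok2 par f3 (((((Box3.unit.r 1).r 0).r 1).r 0).l 2) (selB2 1 (selB2 0 (selB2 0 (selB2 0 C0 1947121225470874643145195719229439) 70) 887) 223) :=
  Ok2.run hw hf3 ⟨360,19,19,16,13⟩ 58
    (.chk false 0)
    (by decide +kernel)

theorem p0_3_11 : Ok2 par f3 ((((((((Box3.unit.r 1).r 0).r 1).r 0).r 2).r 0).r 1).l 2) (selB2 0 (selB2 0 (selB2 0 (selB2 0 (selB2 0 C0 1947121225470874643145195719229439) 70) 887) 1006) 4) :=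
  Ok2.run hw hf3 ⟨411,19,19,16,13⟩ 58
    (.chk false 0)
    (by decide +kernel)

theorem p0_3_12 : Ok2 par f3 ((((((((Box3.unit.r 1).r 0).r 1).r 0).r 2).r 0).r 1).r 2) (selB2 0 (selB2 0 (selB2 0 (selB2 0 (selB2 0 C0 1947121225470874643145195719229439) 70) 887) 1006) 4) :=
  Ok2.run hw hf3 ⟨488,19,19,16,13⟩ 58
    (.split 0 (.part 1 (.chk false 0) (.split 1 (.chk false 0) (.split 2 (.chk false 0) (.split 0 (.chk false 0) (.chk false 0))))) (.chk false 0))
    (by decide +kernel)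

theorem p0_3_13 : Ok2 par f3 (((((((Box3.unit.r 1).r 0).r 1).r 0).r 2).r 0).r 1) (selB2 1 (selB2 0 (selB2 0 (selB2 0 (selB2 0 C0 1947121225470874643145195719229439) 70) 887) 1006) 4) :=
  Ok2.run hw hf3 ⟨400,19,19,16,13⟩ 58
    (.chk false 0)
    (by decide +kernel)

theorem p0_3_14 : Ok2 par f3 (((((((Box3.unit.r 1).r 0).r 1).r 0).r 2).r 0).l 1) (selB2 0 (selB2 0 (selB2 0 (selB2 0 C0 1947121225470874643145195719229439) 70) 887) 1006) :=
  Ok2.run hw hf3 ⟨396,19,19,16,13⟩ 58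
    (.chk false 0)
    (by decide +kernel)

theorem p0_3_15 : Ok2 par f3 ((((((Box3.unit.r 1).r 0).r 1).r 0).r 2).r 0) (selB2 1 (selB2 0 (selB2 0 (selB2 0 C0 1947121225470874643145195719229439) 70) 887) 1006) :=
  Ok2.run hw hf3 ⟨380,19,19,16,13⟩ 58
    (.chk false 0)
    (by decide +kernel)

theorem p0_3_16 : Ok2 par f3 ((((((Box3.unit.r 1).r 0).r 1).r 0).r 2).l 0) (selB2 0 (selB2 0 (selB2 0 C0 1947121225470874643145195719229439) 70) 887) :=
  Ok2.run hw hf3 ⟨433,19,19,16,13⟩ 58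
    (.part 2045 (.chk false 0) (.split 1 (.chk false 0) (.split 2 (.chk false 0) (.split 0 (.chk false 0) (.chk false 0)))))
    (by decide +kernel)

theorem p0_3_17 : Ok2 par f3 ((((Box3.unit.r 1).r 0).r 1).r 0) (selB2 1 (selB2 0 (selB2 0 C0 1947121225470874643145195719229439) 70) 887) :=
  Ok2.run hw hf3 ⟨338,19,19,16,13⟩ 58
    (.chk false 0)
    (by decide +kernel)

theorem p0_3_18 : Ok2 par f3 (((Box3.unit.r 1).r 0).l 1) (selB2 0 (selB2 0 C0 1947121225470874643145195719229439) 70) :=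
  Ok2.run hw hf3 ⟨307,19,19,16,13⟩ 58
    (.chk false 0)
    (by decide +kernel)

theorem p0_3_19 : Ok2 par f3 ((Box3.unit.r 1).r 0) (selB2 1 (selB2 0 C0 1947121225470874643145195719229439) 70) :=
  Ok2.run hw hf3 ⟨294,19,19,16,13⟩ 58
    (.chk false 0)
    (by decide +kernel)

theorem p0_3_20 : Ok2 par f3 (Box3.unit.l 1) (selB2 0 C0 1947121225470874643145195719229439) :=
  Ok2.run hw hf3 ⟨265,19,19,16,13⟩ 58
    (.chk false 0)
    (by decide +kernel)

theorem p0_4_0 : Ok2 par f4 Box3.unit (selB2 1 (selB2 1 C0 2596148429248837686277753020612607) 70368744177663) :=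
  Ok2.run hw hf4 ⟨235,19,19,13,13⟩ 58
    (.chk false 2048)
    (by decide +kernel)

theorem p0_4_1 : Ok2 par f4 Box3.unit (selB2 0 (selB2 1 C0 2596148429248837686277753020612607) 70368744177663) :=
  Ok2.run hw hf4 ⟨235,19,19,13,13⟩ 58
    (.chk false 0)
    (by decide +kernel)

theorem p0_4_2 : Ok2 par f4 (((((Box3.unit.r 0).l 1).r 0).r 0).l 1) (selB2 0 (selB2 0 (selB2 0 C0 2596148429248837686277753020612607) 32) 4107) :=
  Ok2.run hw hf4 ⟨395,19,19,13,13⟩ 58
    (.part 5663 (.chk false 2048) (.split 0 (.chk false 0) (.split 1 (.chk false 0) (.chk false 0))))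
    (by decide +kernel)

theorem p0_4_3 : Ok2 par f4 (((((Box3.unit.r 0).l 1).r 0).r 0).r 1) (selB2 0 (selB2 0 (selB2 0 C0 2596148429248837686277753020612607) 32) 4107) :=
  Ok2.run hw hf4 ⟨347,19,19,13,13⟩ 58
    (.chk false 2048)
    (by decide +kernel)

theorem p0_4_4 : Ok2 par f4 ((((Box3.unit.r 0).l 1).r 0).l 0) (selB2 0 (selB2 0 (selB2 0 C0 2596148429248837686277753020612607) 32) 4107) :=
  Ok2.run hw hf4 ⟨330,19,19,13,13⟩ 58
    (.chk false 2048)
    (by decide +kernel)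

theorem p0_4_5 : Ok2 par f4 (((Box3.unit.r 0).l 1).l 0) (selB2 0 (selB2 0 (selB2 0 C0 2596148429248837686277753020612607) 32) 4107) :=
  Ok2.run hw hf4 ⟨306,19,19,13,13⟩ 58
    (.chk false 2048)
    (by decide +kernel)

theorem p0_4_6 : Ok2 par f4 ((Box3.unit.r 0).l 1) (selB2 1 (selB2 0 (selB2 0 C0 2596148429248837686277753020612607) 32) 4107) :=
  Ok2.run hw hf4 ⟨292,19,19,13,13⟩ 58
    (.chk false 0)
    (by decide +kernel)

theorem p0_4_7 : Ok2 par f4 ((Box3.unit.r 0).r 1) (selB2 0 (selB2 0 C0 2596148429248837686277753020612607) 32) :=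
  Ok2.run hw hf4 ⟨336,19,19,13,13⟩ 58
    (.part 130934 (.chk false 2048) (.split 0 (.chk false 0) (.split 1 (.chk false 0) (.chk false 0))))
    (by decide +kernel)

theorem p0_4_8 : Ok2 par f4 (Box3.unit.r 0) (selB2 1 (selB2 0 C0 2596148429248837686277753020612607) 32) :=
  Ok2.run hw hf4 ⟨264,19,19,13,13⟩ 58
    (.chk false 0)
    (by decide +kernel)

theorem p0_4_9 : Ok2 par f4 (Box3.unit.l 0) (selB2 0 C0 2596148429248837686277753020612607) :=
  Ok2.run hw hf4 ⟨264,19,19,13,13⟩ 58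
    (.chk false 2048)
    (by decide +kernel)

theorem p0_5_0 : Ok2 par f5 ((((((((Box3.unit.l 0).r 1).l 0).r 2).r 1).r 2).r 0).l 1) (selB2 0 (selB2 0 (selB2 0 (selB2 0 (selB2 0 (selB2 0 (selB2 0 C0 2596146572906044066068804459823103) 122) 25165631) 21836) 3) 36) 2) :=
  Ok2.run hw hf5 ⟨399,19,19,13,13⟩ 58
    (.chk false 0)
    (by decide +kernel)

theorem p0_5_1 : Ok2 par f5 ((((((((Box3.unit.l 0).r 1).l 0).r 2).r 1).r 2).r 0).r 1) (selB2 0 (selB2 0 (selB2 0 (selB2 0 (selB2 0 (selB2 0 (selB2 0 C0 2596146572906044066068804459823103) 122) 25165631) 21836) 3) 36) 2) :=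
  Ok2.run hw hf5 ⟨483,19,19,13,13⟩ 58
    (.part 1 (.chk false 0) (.split 2 (.chk false 0) (.split 0 (.chk false 0) (.part 1 (.chk false 0) (.split 1 (.chk false 0) (.split 2 (.chk false 0) (.split 0 (.chk false 0) (.chk false 0))))))))
    (by decide +kernel)

theorem p0_5_2 : Ok2 par f5 (((((((Box3.unit.l 0).r 1).l 0).r 2).r 1).r 2).r 0) (selB2 1 (selB2 0 (selB2 0 (selB2 0 (selB2 0 (selB2 0 (selB2 0 C0 2596146572906044066068804459823103) 122) 25165631) 21836) 3) 36) 2) :=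
  Ok2.run hw hf5 ⟨383,19,19,13,13⟩ 58
    (.chk false 0)
    (by decide +kernel)

theorem p0_5_3 : Ok2 par f5 (((((((Box3.unit.l 0).r 1).l 0).r 2).r 1).r 2).l 0) (selB2 0 (selB2 0 (selB2 0 (selB2 0 (selB2 0 (selB2 0 C0 2596146572906044066068804459823103) 122) 25165631) 21836) 3) 36) :=
  Ok2.run hw hf5 ⟨387,19,19,13,13⟩ 58
    (.chk false 0)
    (by decide +kernel)

theorem p0_5_4 : Ok2 par f5 ((((((Box3.unit.l 0).r 1).l 0).r 2).r 1).l 2) (selB2 0 (selB2 0 (selB2 0 (selB2 0 (selB2 0 (selB2 0 C0 2596146572906044066068804459823103) 122) 25165631) 21836) 3) 36) :=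
  Ok2.run hw hf5 ⟨363,19,19,13,13⟩ 58
    (.chk false 0)
    (by decide +kernel)

theorem p0_5_5 : Ok2 par f5 (((((Box3.unit.l 0).r 1).l 0).r 2).r 1) (selB2 1 (selB2 0 (selB2 0 (selB2 0 (selB2 0 (selB2 0 C0 2596146572906044066068804459823103) 122) 25165631) 21836) 3) 36) :=
  Ok2.run hw hf5 ⟨353,19,19,13,13⟩ 58
    (.chk false 0)
    (by decide +kernel)

theorem p0_5_6 : Ok2 par f5 (((((Box3.unit.l 0).r 1).l 0).r 2).l 1) (selB2 0 (selB2 0 (selB2 0 (selB2 0 (selB2 0 C0 2596146572906044066068804459823103) 122) 25165631) 21836) 3) :=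
  Ok2.run hw hf5 ⟨344,19,19,13,13⟩ 58
    (.chk false 0)
    (by decide +kernel)


end Crest.Agent.R163.R3
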