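import Crest.Agent.R163.Q3.D.R3.S0
import Crest.Agent.R163.Q3.D.R3.H

set_option autoImplicit false
set_option maxRecDepth 100000
set_option linter.all false
set_option Elab.async false

namespace Crest.Agent.R163.R3

theorem p0_5_7 : Ok2 par f5 ((((Box3.unit.l 0).r 1).l 0).r 2) (selB2 1 (selB2 0 (selB2 0 (selB2 0 (selB2 0 C0 2596146572906044066068804459823103) 122) 25165631) 21836) 3) :=
  Ok2.run hw hf5 ⟨331,19,19,13,13⟩ 58
    (.chk false 0)
    (by decide +kernel)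

theorem p0_5_8 : Ok2 par f5 ((((Box3.unit.l 0).r 1).l 0).l 2) (selB2 0 (selB2 0 (selB2 0 (selB2 0 C0 2596146572906044066068804459823103) 122) 25165631) 21836) :=
  Ok2.run hw hf5 ⟨387,19,19,13,13⟩ 58
    (.part 123 (.chk false 0) (.split 1 (.chk false 0) (.part 2 (.chk false 0) (.split 2 (.split 0 (.chk false 0) (.chk false 0)) (.chk false 0)))))
    (by decide +kernel)

theorem p0_5_9 : Ok2 par f5 (((Box3.unit.l 0).r 1).l 0) (selB2 1 (selB2 0 (selB2 0 (selB2 0 C0 2596146572906044066068804459823103) 122) 25165631) 21836) :=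
  Ok2.run hw hf5 ⟨314,19,19,13,13⟩ 58
    (.chk false 0)
    (by decide +kernel)

theorem p0_5_10 : Ok2 par f5 ((((((Box3.unit.l 0).r 1).r 0).r 1).r 2).l 0) (selB2 0 (selB2 0 (selB2 0 (selB2 0 (selB2 0 (selB2 0 C0 2596146572906044066068804459823103) 122) 25165631) 24752) 320) 129) :=
  Ok2.run hw hf5 ⟨429,19,19,13,13⟩ 58
    (.part 14 (.chk false 0) (.split 2 (.chk false 0) (.split 1 (.chk false 0) (.part 6 (.chk false 0) (.split 2 (.split 0 (.chk false 0) (.chk false 0)) (.chk false 0))))))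
    (by decide +kernel)

theorem p0_5_11 : Ok2 par f5 ((((((Box3.unit.l 0).r 1).r 0).r 1).r 2).r 0) (selB2 0 (selB2 0 (selB2 0 (selB2 0 (selB2 0 (selB2 0 C0 2596146572906044066068804459823103) 122) 25165631) 24752) 320) 129) :=
  Ok2.run hw hf5 ⟨394,19,19,13,13⟩ 58
    (.part 60 (.chk false 0) (.split 2 (.chk false 0) (.part 1 (.chk false 0) (.split 1 (.chk false 0) (.chk false 0)))))
    (by decide +kernel)

theorem p0_5_12 : Ok2 par f5 (((((Box3.unit.l 0).r 1).r 0).r 1).r 2) (selB2 1 (selB2 0 (selB2 0 (selB2 0 (selB2 0 (selB2 0 C0 2596146572906044066068804459823103) 122) 25165631) 24752) 320) 129) :=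
  Ok2.run hw hf5 ⟨344,19,19,13,13⟩ 58
    (.chk false 0)
    (by decide +kernel)

theorem p0_5_13 : Ok2 par f5 (((((Box3.unit.l 0).r 1).r 0).r 1).l 2) (selB2 0 (selB2 0 (selB2 0 (selB2 0 (selB2 0 C0 2596146572906044066068804459823103) 122) 25165631) 24752) 320) :=
  Ok2.run hw hf5 ⟨399,19,19,13,13⟩ 58
    (.part 122 (.chk false 0) (.split 0 (.part 6 (.chk false 0) (.split 1 (.chk false 0) (.split 2 (.chk false 0) (.chk false 0)))) (.chk false 0)))
    (by decide +kernel)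

theorem p0_5_14 : Ok2 par f5 ((((Box3.unit.l 0).r 1).r 0).r 1) (selB2 1 (selB2 0 (selB2 0 (selB2 0 (selB2 0 C0 2596146572906044066068804459823103) 122) 25165631) 24752) 320) :=
  Ok2.run hw hf5 ⟨327,19,19,13,13⟩ 58
    (.chk false 0)
    (by decide +kernel)

theorem p0_5_15 : Ok2 par f5 ((((Box3.unit.l 0).r 1).r 0).l 1) (selB2 0 (selB2 0 (selB2 0 (selB2 0 C0 2596146572906044066068804459823103) 122) 25165631) 24752) :=
  Ok2.run hw hf5 ⟨318,19,19,13,13⟩ 58
    (.chk false 0)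
    (by decide +kernel)

theorem p0_5_16 : Ok2 par f5 (((Box3.unit.l 0).r 1).r 0) (selB2 1 (selB2 0 (selB2 0 (selB2 0 C0 2596146572906044066068804459823103) 122) 25165631) 24752) :=
  Ok2.run hw hf5 ⟨305,19,19,13,13⟩ 58
    (.chk false 0)
    (by decide +kernel)

theorem p0_5_17 : Ok2 par f5 ((Box3.unit.l 0).l 1) (selB2 0 (selB2 0 (selB2 0 C0 2596146572906044066068804459823103) 122) 25165631) :=
  Ok2.run hw hf5 ⟨292,19,19,13,13⟩ 58
    (.chk false 0)
    (by decide +kernel)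

theorem p0_5_18 : Ok2 par f5 (Box3.unit.l 0) (selB2 1 (selB2 0 (selB2 0 C0 2596146572906044066068804459823103) 122) 25165631) :=
  Ok2.run hw hf5 ⟨263,19,19,13,13⟩ 58
    (.chk false 0)
    (by decide +kernel)

theorem p0_5_19 : Ok2 par f5 ((((((((Box3.unit.r 0).r 1).l 0).r 1).l 2).r 0).r 1).l 2) (selB2 0 (selB2 0 (selB2 0 (selB2 0 (selB2 0 (selB2 0 (selB2 0 C0 2596146572906044066068804459823103) 122) 137371844867) 4194356) 1671) 3623) 53) :=
  Ok2.run hw hf5 ⟨498,19,19,13,13⟩ 58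
    (.split 0 (.chk false 0) (.part 2 (.chk false 0) (.split 2 (.split 1 (.chk false 0) (.split 2 (.split 0 (.split 1 (.chk false 0) (.chk false 0)) (.chk false 0)) (.chk false 0))) (.chk false 0))))
    (by decide +kernel)

theorem p0_5_20 : Ok2 par f5 ((((((((Box3.unit.r 0).r 1).l 0).r 1).l 2).r 0).r 1).r 2) (selB2 0 (selB2 0 (selB2 0 (selB2 0 (selB2 0 (selB2 0 (selB2 0 C0 2596146572906044066068804459823103) 122) 137371844867) 4194356) 1671) 3623) 53) :=
  Ok2.run hw hf5 ⟨394,19,19,13,13⟩ 58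
    (.chk false 0)
    (by decide +kernel)

theorem p0_5_21 : Ok2 par f5 (((((((Box3.unit.r 0).r 1).l 0).r 1).l 2).r 0).l 1) (selB2 0 (selB2 0 (selB2 0 (selB2 0 (selB2 0 (selB2 0 (selB2 0 C0 2596146572906044066068804459823103) 122) 137371844867) 4194356) 1671) 3623) 53) :=
  Ok2.run hw hf5 ⟨381,19,19,13,13⟩ 58
    (.chk false 0)
    (by decide +kernel)

theorem p0_5_22 : Ok2 par f5 ((((((Box3.unit.r 0).r 1).l 0).r 1).l 2).r 0) (selB2 1 (selB2 0 (selB2 0 (selB2 0 (selB2 0 (selB2 0 (selB2 0 C0 2596146572906044066068804459823103) 122) 137371844867) 4194356) 1671) 3623) 53) :=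
  Ok2.run hw hf5 ⟨365,19,19,13,13⟩ 58
    (.chk false 0)
    (by decide +kernel)

theorem p0_5_23 : Ok2 par f5 ((((((Box3.unit.r 0).r 1).l 0).r 1).l 2).l 0) (selB2 0 (selB2 0 (selB2 0 (selB2 0 (selB2 0 (selB2 0 C0 2596146572906044066068804459823103) 122) 137371844867) 4194356) 1671) 3623) :=
  Ok2.run hw hf5 ⟨360,19,19,13,13⟩ 58
    (.chk false 0)
    (by decide +kernel)

theorem p0_5_24 : Ok2 par f5 (((((Box3.unit.r 0).r 1).l 0).r 1).l 2) (selB2 1 (selB2 0 (selB2 0 (selB2 0 (selB2 0 (selB2 0 C0 2596146572906044066068804459823103) 122) 137371844867) 4194356) 1671) 3623) :=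
  Ok2.run hw hf5 ⟨344,19,19,13,13⟩ 58
    (.chk false 0)
    (by decide +kernel)

theorem p0_5_25 : Ok2 par f5 (((((((((Box3.unit.r 0).r 1).l 0).r 1).r 2).l 0).r 1).r 2).l 0) (selB2 0 (selB2 0 (selB2 0 (selB2 0 (selB2 0 (selB2 0 (selB2 0 (selB2 0 C0 2596146572906044066068804459823103) 122) 137371844867) 4194356) 1671) 24) 40) 160) :=
  Ok2.run hw hf5 ⟨461,19,19,13,13⟩ 58
    (.part 63 (.chk false 0) (.split 1 (.chk false 0) (.split 2 (.chk false 0) (.split 0 (.chk false 0) (.chk false 0)))))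
    (by decide +kernel)

theorem p0_5_26 : Ok2 par f5 (((((((((Box3.unit.r 0).r 1).l 0).r 1).r 2).l 0).r 1).r 2).r 0) (selB2 0 (selB2 0 (selB2 0 (selB2 0 (selB2 0 (selB2 0 (selB2 0 (selB2 0 C0 2596146572906044066068804459823103) 122) 137371844867) 4194356) 1671) 24) 40) 160) :=
  Ok2.run hw hf5 ⟨463,19,19,13,13⟩ 58
    (.part 99 (.chk false 0) (.split 1 (.chk false 0) (.part 4 (.chk false 0) (.split 2 (.chk false 0) (.split 0 (.chk false 0) (.chk false 0))))))
    (by decide +kernel)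

theorem p0_5_27 : Ok2 par f5 ((((((((Box3.unit.r 0).r 1).l 0).r 1).r 2).l 0).r 1).l 2) (selB2 0 (selB2 0 (selB2 0 (selB2 0 (selB2 0 (selB2 0 (selB2 0 (selB2 0 C0 2596146572906044066068804459823103) 122) 137371844867) 4194356) 1671) 24) 40) 160) :=
  Ok2.run hw hf5 ⟨389,19,19,13,13⟩ 58
    (.chk false 0)
    (by decide +kernel)

theorem p0_5_28 : Ok2 par f5 (((((((Box3.unit.r 0).r 1).l 0).r 1).r 2).l 0).r 1) (selB2 1 (selB2 0 (selB2 0 (selB2 0 (selB2 0 (selB2 0 (selB2 0 (selB2 0 C0 2596146572906044066068804459823103) 122) 137371844867) 4194356) 1671) 24) 40) 160) :=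
  Ok2.run hw hf5 ⟨380,19,19,13,13⟩ 58
    (.chk false 0)
    (by decide +kernel)

theorem p0_5_29 : Ok2 par f5 (((((((Box3.unit.r 0).r 1).l 0).r 1).r 2).l 0).l 1) (selB2 0 (selB2 0 (selB2 0 (selB2 0 (selB2 0 (selB2 0 (selB2 0 C0 2596146572906044066068804459823103) 122) 137371844867) 4194356) 1671) 24) 40) :=
  Ok2.run hw hf5 ⟨376,19,19,13,13⟩ 58
    (.chk false 0)
    (by decide +kernel)

theorem p0_5_30 : Ok2 par f5 ((((((Box3.unit.r 0).r 1).l 0).r 1).r 2).l 0) (selB2 1 (selB2 0 (selB2 0 (selB2 0 (selB2 0 (selB2 0 (selB2 0 C0 2596146572906044066068804459823103) 122) 137371844867) 4194356) 1671) 24) 40) :=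
  Ok2.run hw hf5 ⟨360,19,19,13,13⟩ 58
    (.chk false 0)
    (by decide +kernel)

theorem p0_5_31 : Ok2 par f5 ((((((Box3.unit.r 0).r 1).l 0).r 1).r 2).r 0) (selB2 0 (selB2 0 (selB2 0 (selB2 0 (selB2 0 (selB2 0 C0 2596146572906044066068804459823103) 122) 137371844867) 4194356) 1671) 24) :=
  Ok2.run hw hf5 ⟨418,19,19,13,13⟩ 58
    (.part 1961 (.chk false 0) (.split 1 (.chk false 0) (.part 11 (.chk false 0) (.split 2 (.chk false 0) (.split 0 (.chk false 0) (.chk false 0))))))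
    (by decide +kernel)

theorem p0_5_32 : Ok2 par f5 (((((Box3.unit.r 0).r 1).l 0).r 1).r 2) (selB2 1 (selB2 0 (selB2 0 (selB2 0 (selB2 0 (selB2 0 C0 2596146572906044066068804459823103) 122) 137371844867) 4194356) 1671) 24) :=
  Ok2.run hw hf5 ⟨344,19,19,13,13⟩ 58
    (.chk false 0)
    (by decide +kernel)

theorem p0_5_33 : Ok2 par f5 ((((Box3.unit.r 0).r 1).l 0).l 1) (selB2 0 (selB2 0 (selB2 0 (selB2 0 (selB2 0 C0 2596146572906044066068804459823103) 122) 137371844867) 4194356) 1671) :=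
  Ok2.run hw hf5 ⟨318,19,19,13,13⟩ 58
    (.chk false 0)
    (by decide +kernel)

theorem p0_5_34 : Ok2 par f5 (((Box3.unit.r 0).r 1).l 0) (selB2 1 (selB2 0 (selB2 0 (selB2 0 (selB2 0 C0 2596146572906044066068804459823103) 122) 137371844867) 4194356) 1671) :=
  Ok2.run hw hf5 ⟨305,19,19,13,13⟩ 58
    (.chk false 0)
    (by decide +kernel)

theorem p0_5_35 : Ok2 par f5 (((Box3.unit.r 0).r 1).r 0) (selB2 0 (selB2 0 (selB2 0 (selB2 0 C0 2596146572906044066068804459823103) 122) 137371844867) 4194356) :=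
  Ok2.run hw hf5 ⟨336,19,19,13,13⟩ 58
    (.part 512697 (.chk false 0) (.split 1 (.chk false 0) (.chk false 0)))
    (by decide +kernel)

theorem p0_5_36 : Ok2 par f5 ((Box3.unit.r 0).r 1) (selB2 1 (selB2 0 (selB2 0 (selB2 0 C0 2596146572906044066068804459823103) 122) 137371844867) 4194356) :=
  Ok2.run hw hf5 ⟨292,19,19,13,13⟩ 58
    (.chk false 0)
    (by decide +kernel)

theorem p0_5_37 : Ok2 par f5 ((Box3.unit.r 0).l 1) (selB2 0 (selB2 0 (selB2 0 C0 2596146572906044066068804459823103) 122) 137371844867) :=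
  Ok2.run hw hf5 ⟨292,19,19,13,13⟩ 58
    (.chk false 0)
    (by decide +kernel)

theorem p0_5_38 : Ok2 par f5 (Box3.unit.r 0) (selB2 1 (selB2 0 (selB2 0 C0 2596146572906044066068804459823103) 122) 137371844867) :=
  Ok2.run hw hf5 ⟨263,19,19,13,13⟩ 58
    (.chk false 0)
    (by decide +kernel)

theorem p0_5_39 : Ok2 par f5 Box3.unit (selB2 1 (selB2 0 C0 2596146572906044066068804459823103) 122) :=
  Ok2.run hw hf5 ⟨278,25,25,13,13⟩ 58
    (.chk true 0)
    (by decide +kernel)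

theorem p0_5_40 : Ok2 par f5 Box3.unit (selB2 1 C0 2596146572906044066068804459823103) :=
  Ok2.run hw hf5 ⟨235,19,19,13,13⟩ 58
    (.chk false 1024)
    (by decide +kernel)

theorem p0_6_0 : Ok2 par f6 Box3.unit (selB2 1 (selB2 1 C0 2596148429267410929709158821265407) 562949953421311) :=
  Ok2.run hw hf6 ⟨239,19,19,13,13⟩ 58
    (.chk false 512)
    (by decide +kernel)

theorem p0_6_1 : Ok2 par f6 Box3.unit (selB2 0 (selB2 1 C0 2596148429267410929709158821265407) 562949953421311) :=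
  Ok2.run hw hf6 ⟨239,19,19,13,13⟩ 58
    (.chk false 0)
    (by decide +kernel)

theorem p0_6_2 : Ok2 par f6 ((((((Box3.unit.r 0).l 1).l 1).r 0).r 2).l 1) (selB2 0 (selB2 0 (selB2 0 (selB2 0 C0 2596148429267410929709158821265407) 509) 1) 1) :=
  Ok2.run hw hf6 ⟨377,19,19,13,13⟩ 58
    (.chk false 0)
    (by decide +kernel)

theorem p0_6_3 : Ok2 par f6 ((((((Box3.unit.r 0).l 1).l 1).r 0).r 2).r 1) (selB2 0 (selB2 0 (selB2 0 (selB2 0 C0 2596148429267410929709158821265407) 509) 1) 1) :=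
  Ok2.run hw hf6 ⟨476,19,19,13,13⟩ 58
    (.split 0 (.chk false 0) (.split 2 (.chk false 0) (.split 1 (.part 2 (.chk false 0) (.split 0 (.chk false 0) (.split 2 (.chk false 0) (.split 1 (.chk false 0) (.chk false 0))))) (.chk false 0))))
    (by decide +kernel)

theorem p0_6_4 : Ok2 par f6 (((((Box3.unit.r 0).l 1).l 1).r 0).l 2) (selB2 0 (selB2 0 (selB2 0 (selB2 0 C0 2596148429267410929709158821265407) 509) 1) 1) :=
  Ok2.run hw hf6 ⟨357,19,19,13,13⟩ 58
    (.chk false 0)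
    (by decide +kernel)

theorem p0_6_5 : Ok2 par f6 ((((Box3.unit.r 0).l 1).l 1).l 0) (selB2 0 (selB2 0 (selB2 0 (selB2 0 C0 2596148429267410929709158821265407) 509) 1) 1) :=
  Ok2.run hw hf6 ⟨331,19,19,13,13⟩ 58
    (.chk false 0)
    (by decide +kernel)

theorem p0_6_6 : Ok2 par f6 (((Box3.unit.r 0).l 1).r 1) (selB2 0 (selB2 0 (selB2 0 (selB2 0 C0 2596148429267410929709158821265407) 509) 1) 1) :=
  Ok2.run hw hf6 ⟨309,19,19,13,13⟩ 58
    (.chk false 0)
    (by decide +kernel)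

theorem p0_6_7 : Ok2 par f6 ((Box3.unit.r 0).l 1) (selB2 1 (selB2 0 (selB2 0 (selB2 0 C0 2596148429267410929709158821265407) 509) 1) 1) :=
  Ok2.run hw hf6 ⟨296,19,19,13,13⟩ 58
    (.chk false 0)
    (by decide +kernel)


end Crest.Agent.R163.R3
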