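import Crest.Agent.R163.Q3.D.R3.S0
import Crest.Agent.R163.Q3.D.R3.H

set_option autoImplicit false
set_option maxRecDepth 100000
set_option linter.all false
set_option Elab.async false

namespace Crest.Agent.R163.R3

theorem p0_6_8 : Ok2 par f6 ((Box3.unit.r 0).r 1) (selB2 0 (selB2 0 (selB2 0 C0 2596148429267410929709158821265407) 509) 1) :=
  Ok2.run hw hf6 ⟨296,19,19,13,13⟩ 58
    (.chk false 0)
    (by decide +kernel)

theorem p0_6_9 : Ok2 par f6 (Box3.unit.r 0) (selB2 1 (selB2 0 (selB2 0 C0 2596148429267410929709158821265407) 509) 1) :=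
  Ok2.run hw hf6 ⟨268,19,19,13,13⟩ 58
    (.chk false 0)
    (by decide +kernel)

theorem p0_6_10 : Ok2 par f6 (Box3.unit.l 0) (selB2 0 (selB2 0 C0 2596148429267410929709158821265407) 509) :=
  Ok2.run hw hf6 ⟨268,19,19,13,13⟩ 58
    (.chk false 0)
    (by decide +kernel)

theorem p0_6_11 : Ok2 par f6 Box3.unit (selB2 1 (selB2 0 C0 2596148429267410929709158821265407) 509) :=
  Ok2.run hw hf6 ⟨288,25,25,13,13⟩ 58
    (.chk true 0)
    (by decide +kernel)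

theorem p0_7_0 : Ok2 par f7 Box3.unit (selB2 1 (selB2 1 C0 2596148429267312641673147897110527) 1099511627775) :=
  Ok2.run hw hf7 ⟨254,19,19,13,13⟩ 58
    (.chk false 0)
    (by decide +kernel)

theorem p0_7_1 : Ok2 par f7 Box3.unit (selB2 0 (selB2 1 C0 2596148429267312641673147897110527) 1099511627775) :=
  Ok2.run hw hf7 ⟨254,19,19,13,13⟩ 58
    (.chk false 0)
    (by decide +kernel)

theorem p0_7_2 : Ok2 par f7 (((Box3.unit.l 0).l 1).l 0) (selB2 0 (selB2 0 (selB2 0 (selB2 0 (selB2 0 (selB2 0 C0 2596148429267312641673147897110527) 393277) 16427) 161) 24577) 15) :=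
  Ok2.run hw hf7 ⟨383,19,19,13,13⟩ 58
    (.part 179 (.chk false 0) (.split 2 (.part 3 (.chk false 0) (.split 1 (.chk false 0) (.chk false 0))) (.part 4 (.chk false 0) (.split 1 (.chk false 0) (.part 2 (.chk false 0) (.split 0 (.chk false 0) (.chk false 0)))))))
    (by decide +kernel)

theorem p0_7_3 : Ok2 par f7 (((Box3.unit.l 0).l 1).r 0) (selB2 0 (selB2 0 (selB2 0 (selB2 0 (selB2 0 (selB2 0 C0 2596148429267312641673147897110527) 393277) 16427) 161) 24577) 15) :=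
  Ok2.run hw hf7 ⟨324,19,19,13,13⟩ 58
    (.chk false 0)
    (by decide +kernel)

theorem p0_7_4 : Ok2 par f7 ((Box3.unit.l 0).l 1) (selB2 1 (selB2 0 (selB2 0 (selB2 0 (selB2 0 (selB2 0 C0 2596148429267312641673147897110527) 393277) 16427) 161) 24577) 15) :=
  Ok2.run hw hf7 ⟨371,25,25,13,13⟩ 58
    (.chk true 0)
    (by decide +kernel)

theorem p0_7_5 : Ok2 par f7 ((Box3.unit.l 0).l 1) (selB2 1 (selB2 0 (selB2 0 (selB2 0 (selB2 0 C0 2596148429267312641673147897110527) 393277) 16427) 161) 24577) :=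
  Ok2.run hw hf7 ⟨311,19,19,13,13⟩ 58
    (.chk false 512)
    (by decide +kernel)

theorem p0_7_6 : Ok2 par f7 ((((Box3.unit.l 0).r 1).l 0).l 2) (selB2 1 (selB2 0 (selB2 0 (selB2 0 (selB2 0 (selB2 0 (selB2 0 (selB2 0 C0 2596148429267312641673147897110527) 393277) 16427) 161) 32096) 65) 1) 8) :=
  Ok2.run hw hf7 ⟨350,19,19,13,13⟩ 58
    (.chk false 0)
    (by decide +kernel)

theorem p0_7_7 : Ok2 par f7 ((((Box3.unit.l 0).r 1).l 0).l 2) (selB2 0 (selB2 0 (selB2 0 (selB2 0 (selB2 0 (selB2 0 (selB2 0 (selB2 0 C0 2596148429267312641673147897110527) 393277) 16427) 161) 32096) 65) 1) 8) :=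
  Ok2.run hw hf7 ⟨488,25,25,13,13⟩ 58
    (.part 3 (.chk true 0) (.split 1 (.split 0 (.split 1 (.chk true 0) (.chk true 0)) (.chk true 0)) (.chk true 0)))
    (by decide +kernel)

theorem p0_7_8 : Ok2 par f7 ((((((((((((Box3.unit.l 0).r 1).l 0).r 2).l 1).r 0).r 2).r 1).r 2).r 0).r 1).l 2) (selB2 0 (selB2 0 (selB2 0 (selB2 0 (selB2 0 (selB2 0 (selB2 0 (selB2 0 (selB2 0 C0 2596148429267312641673147897110527) 393277) 16427) 161) 32096) 65) 1) 5) 2) :=
  Ok2.run hw hf7 ⟨571,25,25,13,13⟩ 58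
    (.chk true 0)
    (by decide +kernel)

theorem p0_7_9 : Ok2 par f7 ((((((((((((Box3.unit.l 0).r 1).l 0).r 2).l 1).r 0).r 2).r 1).r 2).r 0).r 1).r 2) (selB2 0 (selB2 0 (selB2 0 (selB2 0 (selB2 0 (selB2 0 (selB2 0 (selB2 0 (selB2 0 C0 2596148429267312641673147897110527) 393277) 16427) 161) 32096) 65) 1) 5) 2) :=
  Ok2.run hw hf7 ⟨632,25,25,13,13⟩ 58
    (.split 1 (.chk false 1024) (.split 2 (.chk true 0) (.split 0 (.chk false 1024) (.chk true 0))))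
    (by decide +kernel)

theorem p0_7_10 : Ok2 par f7 (((((((((((Box3.unit.l 0).r 1).l 0).r 2).l 1).r 0).r 2).r 1).r 2).r 0).l 1) (selB2 0 (selB2 0 (selB2 0 (selB2 0 (selB2 0 (selB2 0 (selB2 0 (selB2 0 (selB2 0 C0 2596148429267312641673147897110527) 393277) 16427) 161) 32096) 65) 1) 5) 2) :=
  Ok2.run hw hf7 ⟨460,19,19,13,13⟩ 58
    (.chk false 1024)
    (by decide +kernel)

theorem p0_7_11 : Ok2 par f7 ((((((((((Box3.unit.l 0).r 1).l 0).r 2).l 1).r 0).r 2).r 1).r 2).l 0) (selB2 0 (selB2 0 (selB2 0 (selB2 0 (selB2 0 (selB2 0 (selB2 0 (selB2 0 (selB2 0 C0 2596148429267312641673147897110527) 393277) 16427) 161) 32096) 65) 1) 5) 2) :=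
  Ok2.run hw hf7 ⟨446,19,19,13,13⟩ 58
    (.chk false 1024)
    (by decide +kernel)

theorem p0_7_12 : Ok2 par f7 (((((((((Box3.unit.l 0).r 1).l 0).r 2).l 1).r 0).r 2).r 1).l 2) (selB2 0 (selB2 0 (selB2 0 (selB2 0 (selB2 0 (selB2 0 (selB2 0 (selB2 0 (selB2 0 C0 2596148429267312641673147897110527) 393277) 16427) 161) 32096) 65) 1) 5) 2) :=
  Ok2.run hw hf7 ⟨510,25,25,13,13⟩ 58
    (.chk true 0)
    (by decide +kernel)

theorem p0_7_13 : Ok2 par f7 ((((((((Box3.unit.l 0).r 1).l 0).r 2).l 1).r 0).r 2).l 1) (selB2 0 (selB2 0 (selB2 0 (selB2 0 (selB2 0 (selB2 0 (selB2 0 (selB2 0 (selB2 0 C0 2596148429267312641673147897110527) 393277) 16427) 161) 32096) 65) 1) 5) 2) :=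
  Ok2.run hw hf7 ⟨408,19,19,13,13⟩ 58
    (.chk false 1024)
    (by decide +kernel)

theorem p0_7_14 : Ok2 par f7 (((((((Box3.unit.l 0).r 1).l 0).r 2).l 1).r 0).l 2) (selB2 0 (selB2 0 (selB2 0 (selB2 0 (selB2 0 (selB2 0 (selB2 0 (selB2 0 (selB2 0 C0 2596148429267312641673147897110527) 393277) 16427) 161) 32096) 65) 1) 5) 2) :=
  Ok2.run hw hf7 ⟨468,25,25,13,13⟩ 58
    (.chk true 0)
    (by decide +kernel)

theorem p0_7_15 : Ok2 par f7 ((((((Box3.unit.l 0).r 1).l 0).r 2).l 1).r 0) (selB2 1 (selB2 0 (selB2 0 (selB2 0 (selB2 0 (selB2 0 (selB2 0 (selB2 0 (selB2 0 C0 2596148429267312641673147897110527) 393277) 16427) 161) 32096) 65) 1) 5) 2) :=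
  Ok2.run hw hf7 ⟨379,19,19,13,13⟩ 58
    (.chk false 0)
    (by decide +kernel)

theorem p0_7_16 : Ok2 par f7 ((((((Box3.unit.l 0).r 1).l 0).r 2).l 1).l 0) (selB2 0 (selB2 0 (selB2 0 (selB2 0 (selB2 0 (selB2 0 (selB2 0 (selB2 0 C0 2596148429267312641673147897110527) 393277) 16427) 161) 32096) 65) 1) 5) :=
  Ok2.run hw hf7 ⟨397,19,19,13,13⟩ 58
    (.part 1 (.chk false 1024) (.split 2 (.chk false 0) (.chk false 0)))
    (by decide +kernel)

theorem p0_7_17 : Ok2 par f7 (((((Box3.unit.l 0).r 1).l 0).r 2).l 1) (selB2 1 (selB2 0 (selB2 0 (selB2 0 (selB2 0 (selB2 0 (selB2 0 (selB2 0 C0 2596148429267312641673147897110527) 393277) 16427) 161) 32096) 65) 1) 5) :=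
  Ok2.run hw hf7 ⟨436,25,25,13,13⟩ 58
    (.chk true 0)
    (by decide +kernel)

theorem p0_7_18 : Ok2 par f7 ((((((((((((Box3.unit.l 0).r 1).l 0).r 2).r 1).r 2).r 0).l 1).r 2).l 0).r 1).l 2) (selB2 0 (selB2 0 (selB2 0 (selB2 0 (selB2 0 (selB2 0 (selB2 0 (selB2 0 (selB2 0 C0 2596148429267312641673147897110527) 393277) 16427) 161) 32096) 65) 1) 8) 5) :=
  Ok2.run hw hf7 ⟨577,25,25,13,13⟩ 58
    (.chk true 0)
    (by decide +kernel)

theorem p0_7_19 : Ok2 par f7 ((((((((((((Box3.unit.l 0).r 1).l 0).r 2).r 1).r 2).r 0).l 1).r 2).l 0).r 1).r 2) (selB2 0 (selB2 0 (selB2 0 (selB2 0 (selB2 0 (selB2 0 (selB2 0 (selB2 0 (selB2 0 C0 2596148429267312641673147897110527) 393277) 16427) 161) 32096) 65) 1) 8) 5) :=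
  Ok2.run hw hf7 ⟨639,25,25,13,13⟩ 58
    (.split 2 (.chk true 0) (.split 0 (.chk false 1024) (.split 1 (.chk false 1024) (.chk true 0))))
    (by decide +kernel)

theorem p0_7_20 : Ok2 par f7 (((((((((((Box3.unit.l 0).r 1).l 0).r 2).r 1).r 2).r 0).l 1).r 2).l 0).l 1) (selB2 0 (selB2 0 (selB2 0 (selB2 0 (selB2 0 (selB2 0 (selB2 0 (selB2 0 (selB2 0 C0 2596148429267312641673147897110527) 393277) 16427) 161) 32096) 65) 1) 8) 5) :=
  Ok2.run hw hf7 ⟨467,19,19,13,13⟩ 58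
    (.chk false 1024)
    (by decide +kernel)

theorem p0_7_21 : Ok2 par f7 ((((((((((Box3.unit.l 0).r 1).l 0).r 2).r 1).r 2).r 0).l 1).r 2).r 0) (selB2 0 (selB2 0 (selB2 0 (selB2 0 (selB2 0 (selB2 0 (selB2 0 (selB2 0 (selB2 0 C0 2596148429267312641673147897110527) 393277) 16427) 161) 32096) 65) 1) 8) 5) :=
  Ok2.run hw hf7 ⟨539,25,25,13,13⟩ 58
    (.chk true 0)
    (by decide +kernel)

theorem p0_7_22 : Ok2 par f7 (((((((((Box3.unit.l 0).r 1).l 0).r 2).r 1).r 2).r 0).l 1).l 2) (selB2 0 (selB2 0 (selB2 0 (selB2 0 (selB2 0 (selB2 0 (selB2 0 (selB2 0 (selB2 0 C0 2596148429267312641673147897110527) 393277) 16427) 161) 32096) 65) 1) 8) 5) :=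
  Ok2.run hw hf7 ⟨514,25,25,13,13⟩ 58
    (.chk true 0)
    (by decide +kernel)

theorem p0_7_23 : Ok2 par f7 ((((((((Box3.unit.l 0).r 1).l 0).r 2).r 1).r 2).r 0).r 1) (selB2 0 (selB2 0 (selB2 0 (selB2 0 (selB2 0 (selB2 0 (selB2 0 (selB2 0 (selB2 0 C0 2596148429267312641673147897110527) 393277) 16427) 161) 32096) 65) 1) 8) 5) :=
  Ok2.run hw hf7 ⟨507,25,25,13,13⟩ 58
    (.chk true 0)
    (by decide +kernel)

theorem p0_7_24 : Ok2 par f7 (((((((Box3.unit.l 0).r 1).l 0).r 2).r 1).r 2).l 0) (selB2 0 (selB2 0 (selB2 0 (selB2 0 (selB2 0 (selB2 0 (selB2 0 (selB2 0 (selB2 0 C0 2596148429267312641673147897110527) 393277) 16427) 161) 32096) 65) 1) 8) 5) :=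
  Ok2.run hw hf7 ⟨406,19,19,13,13⟩ 58
    (.chk false 1024)
    (by decide +kernel)

theorem p0_7_25 : Ok2 par f7 ((((((Box3.unit.l 0).r 1).l 0).r 2).r 1).l 2) (selB2 0 (selB2 0 (selB2 0 (selB2 0 (selB2 0 (selB2 0 (selB2 0 (selB2 0 (selB2 0 C0 2596148429267312641673147897110527) 393277) 16427) 161) 32096) 65) 1) 8) 5) :=
  Ok2.run hw hf7 ⟨454,25,25,13,13⟩ 58
    (.chk true 0)
    (by decide +kernel)

theorem p0_7_26 : Ok2 par f7 (((((Box3.unit.l 0).r 1).l 0).r 2).r 1) (selB2 1 (selB2 0 (selB2 0 (selB2 0 (selB2 0 (selB2 0 (selB2 0 (selB2 0 (selB2 0 C0 2596148429267312641673147897110527) 393277) 16427) 161) 32096) 65) 1) 8) 5) :=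
  Ok2.run hw hf7 ⟨445,25,25,13,13⟩ 58
    (.chk true 0)
    (by decide +kernel)

theorem p0_7_27 : Ok2 par f7 (((((Box3.unit.l 0).r 1).l 0).r 2).r 1) (selB2 1 (selB2 0 (selB2 0 (selB2 0 (selB2 0 (selB2 0 (selB2 0 (selB2 0 C0 2596148429267312641673147897110527) 393277) 16427) 161) 32096) 65) 1) 8) :=
  Ok2.run hw hf7 ⟨372,19,19,13,13⟩ 58
    (.chk false 0)
    (by decide +kernel)

theorem p0_7_28 : Ok2 par f7 (((Box3.unit.l 0).r 1).l 0) (selB2 1 (selB2 0 (selB2 0 (selB2 0 (selB2 0 (selB2 0 (selB2 0 C0 2596148429267312641673147897110527) 393277) 16427) 161) 32096) 65) 1) :=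
  Ok2.run hw hf7 ⟨400,25,25,13,13⟩ 58
    (.chk true 0)
    (by decide +kernel)

theorem p0_7_29 : Ok2 par f7 (((Box3.unit.l 0).r 1).l 0) (selB2 1 (selB2 0 (selB2 0 (selB2 0 (selB2 0 (selB2 0 C0 2596148429267312641673147897110527) 393277) 16427) 161) 32096) 65) :=
  Ok2.run hw hf7 ⟨333,19,19,13,13⟩ 58
    (.chk false 512)
    (by decide +kernel)

theorem p0_7_30 : Ok2 par f7 (((Box3.unit.l 0).r 1).r 0) (selB2 0 (selB2 0 (selB2 0 (selB2 0 (selB2 0 C0 2596148429267312641673147897110527) 393277) 16427) 161) 32096) :=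
  Ok2.run hw hf7 ⟨419,25,25,13,13⟩ 58
    (.part 96 (.chk false 0) (.part 26 (.chk true 0) (.split 1 (.chk true 0) (.chk true 0))))
    (by decide +kernel)

theorem p0_7_31 : Ok2 par f7 ((Box3.unit.l 0).r 1) (selB2 1 (selB2 0 (selB2 0 (selB2 0 (selB2 0 C0 2596148429267312641673147897110527) 393277) 16427) 161) 32096) :=
  Ok2.run hw hf7 ⟨311,19,19,13,13⟩ 58
    (.chk false 0)
    (by decide +kernel)

theorem p0_7_32 : Ok2 par f7 (Box3.unit.l 0) (selB2 1 (selB2 0 (selB2 0 (selB2 0 C0 2596148429267312641673147897110527) 393277) 16427) 161) :=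
  Ok2.run hw hf7 ⟨337,25,25,13,13⟩ 58
    (.chk true 0)
    (by decide +kernel)

theorem p0_7_33 : Ok2 par f7 (Box3.unit.l 0) (selB2 1 (selB2 0 (selB2 0 C0 2596148429267312641673147897110527) 393277) 16427) :=
  Ok2.run hw hf7 ⟨282,19,19,13,13⟩ 58
    (.chk false 256)
    (by decide +kernel)

theorem p0_7_34 : Ok2 par f7 ((((Box3.unit.r 0).l 1).r 1).l 2) (selB2 0 (selB2 0 (selB2 0 (selB2 0 (selB2 0 (selB2 0 (selB2 0 C0 2596148429267312641673147897110527) 393277) 8384522) 705) 4) 18) 2) :=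
  Ok2.run hw hf7 ⟨463,25,25,13,13⟩ 58
    (.part 2 (.chk true 0) (.split 0 (.chk true 0) (.split 1 (.chk true 0) (.chk true 0))))
    (by decide +kernel)

theorem p0_7_35 : Ok2 par f7 ((((Box3.unit.r 0).l 1).r 1).r 2) (selB2 0 (selB2 0 (selB2 0 (selB2 0 (selB2 0 (selB2 0 (selB2 0 C0 2596148429267312641673147897110527) 393277) 8384522) 705) 4) 18) 2) :=
  Ok2.run hw hf7 ⟨436,25,25,13,13⟩ 58
    (.part 1 (.chk true 0) (.split 0 (.chk true 0) (.chk true 0)))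
    (by decide +kernel)

theorem p0_7_36 : Ok2 par f7 (((Box3.unit.r 0).l 1).r 1) (selB2 1 (selB2 0 (selB2 0 (selB2 0 (selB2 0 (selB2 0 (selB2 0 C0 2596148429267312641673147897110527) 393277) 8384522) 705) 4) 18) 2) :=
  Ok2.run hw hf7 ⟨391,25,25,13,13⟩ 58
    (.chk true 0)
    (by decide +kernel)

theorem p0_7_37 : Ok2 par f7 (((Box3.unit.r 0).l 1).l 1) (selB2 0 (selB2 0 (selB2 0 (selB2 0 (selB2 0 (selB2 0 C0 2596148429267312641673147897110527) 393277) 8384522) 705) 4) 18) :=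
  Ok2.run hw hf7 ⟨400,25,25,13,13⟩ 58
    (.chk true 0)
    (by decide +kernel)

theorem p0_7_38 : Ok2 par f7 ((Box3.unit.r 0).l 1) (selB2 1 (selB2 0 (selB2 0 (selB2 0 (selB2 0 (selB2 0 C0 2596148429267312641673147897110527) 393277) 8384522) 705) 4) 18) :=
  Ok2.run hw hf7 ⟨372,25,25,13,13⟩ 58
    (.chk true 0)
    (by decide +kernel)

theorem p0_7_39 : Ok2 par f7 ((Box3.unit.r 0).l 1) (selB2 1 (selB2 0 (selB2 0 (selB2 0 (selB2 0 C0 2596148429267312641673147897110527) 393277) 8384522) 705) 4) :=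
  Ok2.run hw hf7 ⟨311,19,19,13,13⟩ 58
    (.chk false 0)
    (by decide +kernel)

theorem p0_7_40 : Ok2 par f7 ((((Box3.unit.r 0).r 1).l 1).l 0) (selB2 0 (selB2 0 (selB2 0 (selB2 0 (selB2 0 (selB2 0 C0 2596148429267312641673147897110527) 393277) 8384522) 705) 56) 4) :=
  Ok2.run hw hf7 ⟨481,25,25,13,13⟩ 58
    (.part 1 (.chk true 0) (.split 2 (.chk true 0) (.split 1 (.chk true 0) (.split 0 (.chk true 0) (.chk true 0)))))
    (by decide +kernel)


end Crest.Agent.R163.R3
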