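import Crest.Agent.R163.Q3.D.R3.P0_0
import Crest.Agent.R163.Q3.D.R3.P0_1
import Crest.Agent.R163.Q3.D.R3.P0_2
import Crest.Agent.R163.Q3.D.R3.P0_3
import Crest.Agent.R163.Q3.D.R3.P0_4
import Crest.Agent.R163.Q3.D.R3.P0_5

set_option autoImplicit false
set_option maxRecDepth 100000
set_option linter.all false
set_option Elab.async false

namespace Crest.Agent.R163.R3

theorem o0_7 : Ok2 par f7 Box3.unit C0 :=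
  (Ok2.part 2596148429267312641673147897110527 (Ok2.part 1099511627775 p0_7_0 p0_7_1) (Ok2.part 393277 p0_7_47 (Ok2.split 0 (Ok2.part 16427 p0_7_33 (Ok2.part 161 p0_7_32 (Ok2.split 1 (Ok2.part 24577 p0_7_5 (Ok2.part 15 p0_7_4 (Ok2.split 0 p0_7_2 p0_7_3))) (Ok2.part 32096 p0_7_31 (Ok2.split 0 (Ok2.part 65 p0_7_29 (Ok2.part 1 p0_7_28 (Ok2.split 2 (Ok2.part 8 p0_7_6 p0_7_7) (Ok2.split 1 (Ok2.part 5 p0_7_17 (Ok2.split 0 p0_7_16 (Ok2.part 2 p0_7_15 (Ok2.split 2 p0_7_14 (Ok2.split 1 p0_7_13 (Ok2.split 2 p0_7_12 (Ok2.split 0 p0_7_11 (Ok2.split 1 p0_7_10 (Ok2.split 2 p0_7_8 p0_7_9))))))))) (Ok2.part 8 p0_7_27 (Ok2.part 5 p0_7_26 (Ok2.split 2 p0_7_25 (Ok2.split 0 p0_7_24 (Ok2.split 1 (Ok2.split 2 p0_7_22 (Ok2.split 0 (Ok2.split 1 p0_7_20 (Ok2.split 2 p0_7_18 p0_7_19)) p0_7_21)) p0_7_23))))))))) p0_7_30)))))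 (Ok2.part 8384522 p0_7_46 (Ok2.part 705 p0_7_45 (Ok2.split 1 (Ok2.part 4 p0_7_39 (Ok2.part 18 p0_7_38 (Ok2.split 1 p0_7_37 (Ok2.part 2 p0_7_36 (Ok2.split 2 p0_7_34 p0_7_35))))) (Ok2.part 56 p0_7_44 (Ok2.split 1 (Ok2.part 4 p0_7_42 (Ok2.split 0 p0_7_40 p0_7_41)) p0_7_43))))))))
theorem o0_6 : Ok2 par f6 Box3.unit C0 :=
  (Ok2.part 2596148429267410929709158821265407 (Ok2.part 562949953421311 p0_6_0 p0_6_1) (Ok2.part 509 p0_6_11 (Ok2.split 0 p0_6_10 (Ok2.part 1 p0_6_9 (Ok2.split 1 (Ok2.part 1 p0_6_7 (Ok2.split 1 (Ok2.split 0 p0_6_5 (Ok2.split 2 p0_6_4 (Ok2.split 1 p0_6_2 p0_6_3))) p0_6_6)) p0_6_8)))))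
theorem o0_5 : Ok2 par f5 Box3.unit C0 :=
  (Ok2.part 2596146572906044066068804459823103 p0_5_40 (Ok2.part 122 p0_5_39 (Ok2.split 0 (Ok2.part 25165631 p0_5_18 (Ok2.split 1 p0_5_17 (Ok2.split 0 (Ok2.part 21836 p0_5_9 (Ok2.split 2 p0_5_8 (Ok2.part 3 p0_5_7 (Ok2.split 1 p0_5_6 (Ok2.part 36 p0_5_5 (Ok2.split 2 p0_5_4 (Ok2.split 0 p0_5_3 (Ok2.part 2 p0_5_2 (Ok2.split 1 p0_5_0 p0_5_1))))))))) (Ok2.part 24752 p0_5_16 (Ok2.split 1 p0_5_15 (Ok2.part 320 p0_5_14 (Ok2.split 2 p0_5_13 (Ok2.part 129 p0_5_12 (Ok2.split 0 p0_5_10 p0_5_11))))))))) (Ok2.part 137371844867 p0_5_38 (Ok2.split 1 p0_5_37 (Ok2.part 4194356 p0_5_36 (Ok2.split 0 (Ok2.part 1671 p0_5_34 (Ok2.split 1 p0_5_33 (Ok2.split 2 (Ok2.part 3623 p0_5_24 (Ok2.split 0 p0_5_23 (Ok2.part 53 p0_5_22 (Ok2.split 1 p0_5_21 (Ok2.split 2 p0_5_19 p0_5_20)))))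 (Ok2.part 24 p0_5_32 (Ok2.split 0 (Ok2.part 40 p0_5_30 (Ok2.split 1 p0_5_29 (Ok2.part 160 p0_5_28 (Ok2.split 2 p0_5_27 (Ok2.split 0 p0_5_25 p0_5_26))))) p0_5_31))))) p0_5_35)))))))
theorem o0_4 : Ok2 par f4 Box3.unit C0 :=
  (Ok2.part 2596148429248837686277753020612607 (Ok2.part 70368744177663 p0_4_0 p0_4_1) (Ok2.split 0 p0_4_9 (Ok2.part 32 p0_4_8 (Ok2.split 1 (Ok2.part 4107 p0_4_6 (Ok2.split 0 p0_4_5 (Ok2.split 0 p0_4_4 (Ok2.split 1 p0_4_2 p0_4_3)))) p0_4_7))))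
theorem o0_3 : Ok2 par f3 Box3.unit C0 :=
  (Ok2.part 1947121225470874643145195719229439 (Ok2.part 17592186044415 p0_3_0 p0_3_1) (Ok2.split 1 p0_3_20 (Ok2.split 0 (Ok2.part 4194273 p0_3_4 (Ok2.split 1 p0_3_2 p0_3_3)) (Ok2.part 70 p0_3_19 (Ok2.split 1 p0_3_18 (Ok2.split 0 (Ok2.part 524171 p0_3_5 p0_3_6) (Ok2.part 887 p0_3_17 (Ok2.split 2 (Ok2.part 223 p0_3_10 (Ok2.split 2 (Ok2.split 0 p0_3_7 p0_3_8) p0_3_9)) (Ok2.split 0 p0_3_16 (Ok2.part 1006 p0_3_15 (Ok2.split 1 p0_3_14 (Ok2.part 4 p0_3_13 (Ok2.split 2 p0_3_11 p0_3_12)))))))))))))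
theorem o0_2 : Ok2 par f2 Box3.unit C0 :=
  (Ok2.part 1298082261765092244794344750546943 p0_2_63 (Ok2.split 1 (Ok2.part 5633759604858876 p0_2_26 (Ok2.split 2 (Ok2.part 965 p0_2_12 (Ok2.split 1 (Ok2.part 16159 p0_2_5 (Ok2.split 0 (Ok2.part 2 p0_2_3 (Ok2.split 2 (Ok2.split 0 p0_2_0 p0_2_1) p0_2_2)) p0_2_4)) (Ok2.part 8405 p0_2_11 (Ok2.split 2 (Ok2.split 0 p0_2_9 (Ok2.part 4 p0_2_8 (Ok2.split 2 p0_2_6 p0_2_7))) p0_2_10)))) (Ok2.part 516154 p0_2_25 (Ok2.split 1 (Ok2.part 992 p0_2_17 (Ok2.split 0 (Ok2.part 1 p0_2_15 (Ok2.split 0 p0_2_13 p0_2_14)) p0_2_16)) (Ok2.part 543 p0_2_24 (Ok2.split 0 p0_2_23 (Ok2.split 1 p0_2_22 (Ok2.part 1 p0_2_21 (Ok2.split 0 (Ok2.part 1 p0_2_18 p0_2_19) p0_2_20))))))))) (Ok2.part 144673740670672899 p0_2_62 (Ok2.split 0 (Ok2.part 4810363371519 p0_2_27 p0_2_28) (Ok2.split 1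 (Ok2.part 34359736160 p0_2_49 (Ok2.split 1 p0_2_48 (Ok2.part 16592 p0_2_47 (Ok2.split 0 (Ok2.part 31 p0_2_33 (Ok2.split 1 (Ok2.part 7 p0_2_31 (Ok2.split 2 p0_2_29 p0_2_30)) p0_2_32)) (Ok2.part 1856 p0_2_46 (Ok2.split 0 p0_2_45 (Ok2.part 96 p0_2_44 (Ok2.split 0 p0_2_43 (Ok2.split 1 p0_2_42 (Ok2.part 16 p0_2_41 (Ok2.split 2 (Ok2.part 8 p0_2_34 p0_2_35) (Ok2.split 0 p0_2_40 (Ok2.split 1 (Ok2.part 12 p0_2_38 (Ok2.split 2 p0_2_36 p0_2_37)) p0_2_39))))))))))))) (Ok2.part 8778915253319 p0_2_61 (Ok2.split 0 p0_2_60 (Ok2.split 1 (Ok2.part 131596224 p0_2_54 (Ok2.split 0 p0_2_53 (Ok2.split 0 p0_2_52 (Ok2.split 1 p0_2_50 p0_2_51)))) (Ok2.part 105890303 p0_2_59 (Ok2.split 0 p0_2_58 (Ok2.split 1 (Ok2.part 255 p0_2_55 p0_2_56) p0_2_57)))))))))))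
theorem o0_1 : Ok2 par f1 Box3.unit C0 :=
  (Ok2.part 2595871130698613889070476621250559 (Ok2.part 9007199254740991 p0_1_0 p0_1_1) (Ok2.split 0 p0_1_6 (Ok2.part 13 p0_1_5 (Ok2.split 1 (Ok2.split 2 p0_1_2 p0_1_3) p0_1_4))))
theorem o0_0 : Ok2 par f0 Box3.unit C0 :=
  (Ok2.part 2596148429267413814263049141354495 (Ok2.part 36028797018963967 p0_0_0 p0_0_1) p0_0_2)

theorem pt0 : PtAll2 par C0 :=
  PtAll2.of_okD hw (OkD2.cover [f0.dom,f1.dom,f2.dom,f3.dom,f4.dom,f5.dom,f6.dom,f7.dom]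
    (.split 0 (.leaf 0) (.split 1 (.split 0 (.leaf 1) (.leaf 2)) (.split 0 (.leaf 3) (.split 1 (.leaf 4) (.split 0 (.leaf 5) (.split 1 (.leaf 6) (.leaf 7)))))))
    (by decide +kernel)
    (List.forall_mem_cons.2 ⟨OkD2.of_ok o0_0, (List.forall_mem_cons.2 ⟨OkD2.of_ok o0_1, (List.forall_mem_cons.2 ⟨OkD2.of_ok o0_2, (List.forall_mem_cons.2 ⟨OkD2.of_ok o0_3, (List.forall_mem_cons.2 ⟨OkD2.of_ok o0_4, (List.forall_mem_cons.2 ⟨OkD2.of_ok o0_5, (List.forall_mem_cons.2 ⟨OkD2.of_ok o0_6, (List.forall_mem_cons.2 ⟨OkD2.of_ok o0_7, (fun _ h => nomatch h)⟩)⟩)⟩)⟩)⟩)⟩)⟩)⟩))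

end Crest.Agent.R163.R3
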