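import Crest.Agent.R163.Q3.D.R3.S0
import Crest.Agent.R163.Q3.D.R3.H

set_option autoImplicit false
set_option maxRecDepth 100000
set_option linter.all false
set_option Elab.async false

namespace Crest.Agent.R163.R3

theorem p0_0_0 : Ok2 par f0 Box3.unit (selB2 1 (selB2 1 C0 2596148429267413814263049141354495) 36028797018963967) :=
  Ok2.run hw hf0 ⟨237,19,19,16,13⟩ 58
    (.chk false 2048)
    (by decide +kernel)

theorem p0_0_1 : Ok2 par f0 Box3.unit (selB2 0 (selB2 1 C0 2596148429267413814263049141354495) 36028797018963967) :=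
  Ok2.run hw hf0 ⟨237,19,19,16,13⟩ 58
    (.chk false 0)
    (by decide +kernel)

theorem p0_0_2 : Ok2 par f0 Box3.unit (selB2 0 C0 2596148429267413814263049141354495) :=
  Ok2.run hw hf0 ⟨316,19,19,16,13⟩ 58
    (.split 0 (.chk false 0) (.split 1 (.chk false 0) (.split 0 (.chk false 0) (.chk false 0))))
    (by decide +kernel)

theorem p0_1_0 : Ok2 par f1 Box3.unit (selB2 1 (selB2 1 C0 2595871130698613889070476621250559) 9007199254740991) :=
  Ok2.run hw hf1 ⟨237,19,19,16,13⟩ 58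
    (.chk false 2048)
    (by decide +kernel)

theorem p0_1_1 : Ok2 par f1 Box3.unit (selB2 0 (selB2 1 C0 2595871130698613889070476621250559) 9007199254740991) :=
  Ok2.run hw hf1 ⟨237,19,19,16,13⟩ 58
    (.chk false 0)
    (by decide +kernel)

theorem p0_1_2 : Ok2 par f1 (((Box3.unit.r 0).l 1).l 2) (selB2 0 (selB2 0 C0 2595871130698613889070476621250559) 13) :=
  Ok2.run hw hf1 ⟨397,19,19,16,13⟩ 58
    (.part 1 (.chk false 0) (.split 0 (.chk false 0) (.split 1 (.split 2 (.split 0 (.chk false 0) (.chk false 0)) (.chk false 0)) (.chk false 0))))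
    (by decide +kernel)

theorem p0_1_3 : Ok2 par f1 (((Box3.unit.r 0).l 1).r 2) (selB2 0 (selB2 0 C0 2595871130698613889070476621250559) 13) :=
  Ok2.run hw hf1 ⟨338,19,19,16,13⟩ 58
    (.part 2 (.chk false 0) (.split 0 (.chk false 0) (.chk false 0)))
    (by decide +kernel)

theorem p0_1_4 : Ok2 par f1 ((Box3.unit.r 0).r 1) (selB2 0 (selB2 0 C0 2595871130698613889070476621250559) 13) :=
  Ok2.run hw hf1 ⟨294,19,19,16,13⟩ 58
    (.chk false 0)
    (by decide +kernel)

theorem p0_1_5 : Ok2 par f1 (Box3.unit.r 0) (selB2 1 (selB2 0 C0 2595871130698613889070476621250559) 13) :=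
  Ok2.run hw hf1 ⟨265,19,19,16,13⟩ 58
    (.chk false 0)
    (by decide +kernel)

theorem p0_1_6 : Ok2 par f1 (Box3.unit.l 0) (selB2 0 C0 2595871130698613889070476621250559) :=
  Ok2.run hw hf1 ⟨265,19,19,16,13⟩ 58
    (.chk false 0)
    (by decide +kernel)

theorem p0_2_0 : Ok2 par f2 ((((((Box3.unit.l 1).l 2).l 1).l 0).l 2).l 0) (selB2 0 (selB2 0 (selB2 0 (selB2 0 (selB2 0 C0 1298082261765092244794344750546943) 5633759604858876) 965) 16159) 2) :=
  Ok2.run hw hf2 ⟨463,19,19,13,13⟩ 58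
    (.split 1 (.chk false 0) (.split 2 (.split 0 (.chk false 0) (.split 1 (.part 1 (.chk false 0) (.split 2 (.split 0 (.chk false 0) (.chk false 0)) (.chk false 0))) (.chk false 0))) (.chk false 0)))
    (by decide +kernel)

theorem p0_2_1 : Ok2 par f2 ((((((Box3.unit.l 1).l 2).l 1).l 0).l 2).r 0) (selB2 0 (selB2 0 (selB2 0 (selB2 0 (selB2 0 C0 1298082261765092244794344750546943) 5633759604858876) 965) 16159) 2) :=
  Ok2.run hw hf2 ⟨427,19,19,13,13⟩ 58
    (.split 1 (.chk false 0) (.part 2 (.chk false 0) (.split 0 (.split 2 (.split 1 (.chk false 0) (.chk false 0)) (.chk false 0)) (.chk false 0))))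
    (by decide +kernel)

theorem p0_2_2 : Ok2 par f2 (((((Box3.unit.l 1).l 2).l 1).l 0).r 2) (selB2 0 (selB2 0 (selB2 0 (selB2 0 (selB2 0 C0 1298082261765092244794344750546943) 5633759604858876) 965) 16159) 2) :=
  Ok2.run hw hf2 ⟨341,19,19,13,13⟩ 58
    (.chk false 0)
    (by decide +kernel)

theorem p0_2_3 : Ok2 par f2 ((((Box3.unit.l 1).l 2).l 1).l 0) (selB2 1 (selB2 0 (selB2 0 (selB2 0 (selB2 0 C0 1298082261765092244794344750546943) 5633759604858876) 965) 16159) 2) :=
  Ok2.run hw hf2 ⟨332,19,19,13,13⟩ 58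
    (.chk false 0)
    (by decide +kernel)

theorem p0_2_4 : Ok2 par f2 ((((Box3.unit.l 1).l 2).l 1).r 0) (selB2 0 (selB2 0 (selB2 0 (selB2 0 C0 1298082261765092244794344750546943) 5633759604858876) 965) 16159) :=
  Ok2.run hw hf2 ⟨332,19,19,13,13⟩ 58
    (.chk false 0)
    (by decide +kernel)

theorem p0_2_5 : Ok2 par f2 (((Box3.unit.l 1).l 2).l 1) (selB2 1 (selB2 0 (selB2 0 (selB2 0 C0 1298082261765092244794344750546943) 5633759604858876) 965) 16159) :=
  Ok2.run hw hf2 ⟨303,19,19,13,13⟩ 58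
    (.chk false 256)
    (by decide +kernel)

theorem p0_2_6 : Ok2 par f2 ((((((Box3.unit.l 1).l 2).r 1).l 2).r 0).l 2) (selB2 0 (selB2 0 (selB2 0 (selB2 0 (selB2 0 C0 1298082261765092244794344750546943) 5633759604858876) 965) 8405) 4) :=
  Ok2.run hw hf2 ⟨406,19,19,13,13⟩ 58
    (.split 1 (.part 119 (.chk false 0) (.split 0 (.chk false 0) (.chk false 0))) (.part 15 (.chk false 0) (.split 1 (.part 3 (.chk false 0) (.split 0 (.chk false 0) (.chk false 0))) (.chk false 0))))
    (by decide +kernel)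

theorem p0_2_7 : Ok2 par f2 ((((((Box3.unit.l 1).l 2).r 1).l 2).r 0).r 2) (selB2 0 (selB2 0 (selB2 0 (selB2 0 (selB2 0 C0 1298082261765092244794344750546943) 5633759604858876) 965) 8405) 4) :=
  Ok2.run hw hf2 ⟨348,19,19,13,13⟩ 58
    (.chk false 0)
    (by decide +kernel)

theorem p0_2_8 : Ok2 par f2 (((((Box3.unit.l 1).l 2).r 1).l 2).r 0) (selB2 1 (selB2 0 (selB2 0 (selB2 0 (selB2 0 C0 1298082261765092244794344750546943) 5633759604858876) 965) 8405) 4) :=
  Ok2.run hw hf2 ⟨337,19,19,13,13⟩ 58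
    (.chk false 0)
    (by decide +kernel)

theorem p0_2_9 : Ok2 par f2 (((((Box3.unit.l 1).l 2).r 1).l 2).l 0) (selB2 0 (selB2 0 (selB2 0 (selB2 0 C0 1298082261765092244794344750546943) 5633759604858876) 965) 8405) :=
  Ok2.run hw hf2 ⟨337,19,19,13,13⟩ 58
    (.chk false 0)
    (by decide +kernel)

theorem p0_2_10 : Ok2 par f2 ((((Box3.unit.l 1).l 2).r 1).r 2) (selB2 0 (selB2 0 (selB2 0 (selB2 0 C0 1298082261765092244794344750546943) 5633759604858876) 965) 8405) :=
  Ok2.run hw hf2 ⟨304,19,19,13,13⟩ 58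
    (.chk false 0)
    (by decide +kernel)

theorem p0_2_11 : Ok2 par f2 (((Box3.unit.l 1).l 2).r 1) (selB2 1 (selB2 0 (selB2 0 (selB2 0 C0 1298082261765092244794344750546943) 5633759604858876) 965) 8405) :=
  Ok2.run hw hf2 ⟨294,19,19,13,13⟩ 58
    (.chk false 256)
    (by decide +kernel)

theorem p0_2_12 : Ok2 par f2 ((Box3.unit.l 1).l 2) (selB2 1 (selB2 0 (selB2 0 C0 1298082261765092244794344750546943) 5633759604858876) 965) :=
  Ok2.run hw hf2 ⟨281,19,19,13,13⟩ 58
    (.chk false 256)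
    (by decide +kernel)

theorem p0_2_13 : Ok2 par f2 (((((Box3.unit.l 1).r 2).l 1).l 0).l 0) (selB2 0 (selB2 0 (selB2 0 (selB2 0 (selB2 0 C0 1298082261765092244794344750546943) 5633759604858876) 516154) 992) 1) :=
  Ok2.run hw hf2 ⟨435,19,19,13,13⟩ 58
    (.part 13 (.chk false 0) (.split 2 (.chk false 0) (.split 1 (.split 0 (.chk false 0) (.split 2 (.chk false 0) (.split 1 (.chk false 0) (.chk false 0)))) (.chk false 0))))
    (by decide +kernel)

theorem p0_2_14 : Ok2 par f2 (((((Box3.unit.l 1).r 2).l 1).l 0).r 0) (selB2 0 (selB2 0 (selB2 0 (selB2 0 (selB2 0 C0 1298082261765092244794344750546943) 5633759604858876) 516154) 992) 1) :=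
  Ok2.run hw hf2 ⟨450,19,19,13,13⟩ 58
    (.part 7 (.chk false 0) (.split 1 (.split 2 (.chk false 0) (.split 0 (.split 1 (.split 2 (.chk false 0) (.split 0 (.chk false 0) (.chk false 0))) (.chk false 0)) (.chk false 0))) (.chk false 0)))
    (by decide +kernel)

theorem p0_2_15 : Ok2 par f2 ((((Box3.unit.l 1).r 2).l 1).l 0) (selB2 1 (selB2 0 (selB2 0 (selB2 0 (selB2 0 C0 1298082261765092244794344750546943) 5633759604858876) 516154) 992) 1) :=
  Ok2.run hw hf2 ⟨332,19,19,13,13⟩ 58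
    (.chk false 256)
    (by decide +kernel)

theorem p0_2_16 : Ok2 par f2 ((((Box3.unit.l 1).r 2).l 1).r 0) (selB2 0 (selB2 0 (selB2 0 (selB2 0 C0 1298082261765092244794344750546943) 5633759604858876) 516154) 992) :=
  Ok2.run hw hf2 ⟨373,19,19,13,13⟩ 58
    (.part 30 (.chk false 0) (.split 0 (.chk false 256) (.split 1 (.chk false 256) (.chk false 256))))
    (by decide +kernel)

theorem p0_2_17 : Ok2 par f2 (((Box3.unit.l 1).r 2).l 1) (selB2 1 (selB2 0 (selB2 0 (selB2 0 C0 1298082261765092244794344750546943) 5633759604858876) 516154) 992) :=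
  Ok2.run hw hf2 ⟨303,19,19,13,13⟩ 58
    (.chk false 0)
    (by decide +kernel)

theorem p0_2_18 : Ok2 par f2 ((((((Box3.unit.l 1).r 2).r 1).r 0).r 1).l 0) (selB2 1 (selB2 0 (selB2 0 (selB2 0 (selB2 0 (selB2 0 C0 1298082261765092244794344750546943) 5633759604858876) 516154) 543) 1) 1) :=
  Ok2.run hw hf2 ⟨351,19,19,13,13⟩ 58
    (.chk false 0)
    (by decide +kernel)

theorem p0_2_19 : Ok2 par f2 ((((((Box3.unit.l 1).r 2).r 1).r 0).r 1).l 0) (selB2 0 (selB2 0 (selB2 0 (selB2 0 (selB2 0 (selB2 0 C0 1298082261765092244794344750546943) 5633759604858876) 516154) 543) 1) 1) :=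
  Ok2.run hw hf2 ⟨469,19,19,13,13⟩ 58
    (.split 1 (.part 2 (.chk false 0) (.split 0 (.split 2 (.chk false 0) (.split 1 (.split 0 (.chk false 0) (.split 2 (.chk false 0) (.split 1 (.chk false 0) (.chk false 0)))) (.chk false 0))) (.chk false 0))) (.chk false 0))
    (by decide +kernel)

theorem p0_2_20 : Ok2 par f2 ((((((Box3.unit.l 1).r 2).r 1).r 0).r 1).r 0) (selB2 0 (selB2 0 (selB2 0 (selB2 0 (selB2 0 C0 1298082261765092244794344750546943) 5633759604858876) 516154) 543) 1) :=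
  Ok2.run hw hf2 ⟨360,19,19,13,13⟩ 58
    (.chk false 0)
    (by decide +kernel)

theorem p0_2_21 : Ok2 par f2 (((((Box3.unit.l 1).r 2).r 1).r 0).r 1) (selB2 1 (selB2 0 (selB2 0 (selB2 0 (selB2 0 C0 1298082261765092244794344750546943) 5633759604858876) 516154) 543) 1) :=
  Ok2.run hw hf2 ⟨338,19,19,13,13⟩ 58
    (.chk false 0)
    (by decide +kernel)

theorem p0_2_22 : Ok2 par f2 (((((Box3.unit.l 1).r 2).r 1).r 0).l 1) (selB2 0 (selB2 0 (selB2 0 (selB2 0 C0 1298082261765092244794344750546943) 5633759604858876) 516154) 543) :=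
  Ok2.run hw hf2 ⟨365,19,19,13,13⟩ 58
    (.split 0 (.chk false 0) (.chk false 0))
    (by decide +kernel)

theorem p0_2_23 : Ok2 par f2 ((((Box3.unit.l 1).r 2).r 1).l 0) (selB2 0 (selB2 0 (selB2 0 (selB2 0 C0 1298082261765092244794344750546943) 5633759604858876) 516154) 543) :=
  Ok2.run hw hf2 ⟨343,19,19,13,13⟩ 58
    (.part 11 (.chk false 0) (.split 1 (.chk false 0) (.chk false 0)))
    (by decide +kernel)

theorem p0_2_24 : Ok2 par f2 (((Box3.unit.l 1).r 2).r 1) (selB2 1 (selB2 0 (selB2 0 (selB2 0 C0 1298082261765092244794344750546943) 5633759604858876) 516154) 543) :=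
  Ok2.run hw hf2 ⟨294,19,19,13,13⟩ 58
    (.chk false 256)
    (by decide +kernel)

theorem p0_2_25 : Ok2 par f2 ((Box3.unit.l 1).r 2) (selB2 1 (selB2 0 (selB2 0 C0 1298082261765092244794344750546943) 5633759604858876) 516154) :=
  Ok2.run hw hf2 ⟨281,19,19,13,13⟩ 58
    (.chk false 256)
    (by decide +kernel)


end Crest.Agent.R163.R3
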